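import Vale.Agent.P252.Rigidity.General.Spec

/-!
# Balanced caps of large height contain a fixed neighbourhood of their centre

A cap balanced around `x₀` contains a fixed ball, so its slope is `O(h)`; hence on a smaller fixed
ball `η ≥ 1/2` once the height is large.
-/

namespace Vale.Agent.P252.General

open scoped ContDiff Matrix
open MeasureTheory Metric Finset
open Three (AM)

noncomputable section

variable {n : ℕ} {β : ℝ} {W : Set (Fin n → ℝ)} {u : (Fin n → ℝ) → ℝ} {x₀ : Fin n → ℝ}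

/-- The dot product against the sup norm. -/
lemma abs_dotProduct_le {a d : Fin n → ℝ} {A r : ℝ} (hA : ∀ i, |a i| ≤ A) (hd : ‖d‖ ≤ r)
    (hA0 : 0 ≤ A) : |a ⬝ᵥ d| ≤ n * (A * r) := by
  refine (Finset.abs_sum_le_sum_abs _ _).trans ((Finset.sum_le_card_nsmul _ _ (A * r) ?_).trans
    (by simp))
  intro i _
  rw [abs_mul]
  exact mul_le_mul (hA i) ((Real.norm_eq_abs _ ▸ norm_le_pi_norm d i).trans hd) (abs_nonneg _) hA0

/-- Caps balanced around `x₀` of height at least `h₀` contain a fixed ball around `x₀`, on which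
`η ≥ 1/2`. -/
theorem cap_uniform (hβ : 0 < β) (hu : AM W u) (h0 : x₀ ∈ W) :
    ∃ r h₀ c : ℝ, 0 < r ∧ 0 < h₀ ∧ 0 < c ∧ ∀ h, h₀ ≤ h → ∀ p, IsCap u x₀ p h β W →
      c ≤ (volume (capSet u x₀ p h W)).toReal ∧
      ∀ y ∈ closedBall x₀ r, y ∈ capSet u x₀ p h W ∧ 1 / 2 ≤ etaF u x₀ p h y := by
  obtain ⟨r₁, hr₁, hball⟩ := nhds_basis_closedBall.mem_iff.1 (hu.isOpen.mem_nhds h0)
  have hcb := isCompact_closedBall x₀ r₁
  obtain ⟨M, hM⟩ := hcb.exists_bound_of_continuousOn
    ((hu.sm.continuousOn.mono hball).sub (continuousOn_const (c := u x₀)))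
  simp only [Real.norm_eq_abs] at hM
  set K : ℝ := max M 0 + 1 with hK
  have hM0 : 0 ≤ max M 0 := le_max_right _ _
  have hK0 : 0 < K := by positivity
  set ρ : ℝ := r₁ * min β 1 with hρ
  have hmin : 0 < min β 1 := lt_min hβ one_pos
  have hρ0 : 0 < ρ := by positivity
  have hρr : ρ ≤ r₁ := mul_le_of_le_one_right hr₁.le (min_le_right _ _)
  have hρb : β⁻¹ * ρ ≤ r₁ := by
    rw [inv_mul_le_iff₀ hβ, mul_comm β]
    exact mul_le_mul_of_nonneg_left (min_le_left _ _) hr₁.le
  have hN : (0 : ℝ) < 8 * (n + 1) := by positivity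
  set r : ℝ := ρ / (8 * (n + 1)) with hrdef
  have hr0 : 0 < r := by positivity
  have hrρ : r ≤ ρ := div_le_self hρ0.le (by
    have : (0 : ℝ) ≤ n := Nat.cast_nonneg n
    linarith)
  refine ⟨r, 4 * K, (2 * r) ^ n, by positivity, by positivity, by positivity,
    fun h hh p hp => ?_⟩
  have hhpos : 0 < h := lt_of_lt_of_le (by positivity) hh
  have hMh : max M 0 ≤ h / 4 := by linarith
  have hu0 : ∀ d : Fin n → ℝ, ‖d‖ ≤ r₁ → x₀ + d ∈ W ∧ |u (x₀ + d) - u x₀| ≤ max M 0 :=
    fun d hd => ⟨hball (by simpa [mem_closedBall, dist_eq_norm] using hd),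
      (hM _ (by simpa [mem_closedBall, dist_eq_norm] using hd)).trans (le_max_left _ _)⟩
  -- the half ball lies in the cap
  have hhalf : ∀ d : Fin n → ℝ, ‖d‖ ≤ r₁ → 0 ≤ p ⬝ᵥ d → x₀ + d ∈ capSet u x₀ p h W :=
    fun d hd hpd => ⟨(hu0 d hd).1, by
      rw [capFun, add_sub_cancel_left]
      linarith [le_abs_self (u (x₀ + d) - u x₀), (hu0 d hd).2]⟩
  -- the reflection gives a ball
  have hfull : ∀ d : Fin n → ℝ, ‖d‖ ≤ ρ → x₀ + d ∈ capSet u x₀ p h W := by
    intro d hd
    rcases le_or_gt 0 (p ⬝ᵥ d) with hp0 | hp0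
    · exact hhalf d (hd.trans (by linarith)) hp0
    · have hz : x₀ + (-β⁻¹) • d ∈ capSet u x₀ p h W := hhalf _
        (by
          rw [norm_smul, norm_neg, Real.norm_eq_abs, abs_of_pos (inv_pos.2 hβ)]
          exact (mul_le_mul_of_nonneg_left hd (inv_pos.2 hβ).le).trans hρb)
        (by
          rw [dotProduct_smul, smul_eq_mul, neg_mul, ← mul_neg]
          exact mul_nonneg (inv_pos.2 hβ).le (by linarith))
      have := hp.bal _ hz
      rwa [add_sub_cancel_left, smul_smul, show β * -β⁻¹ = -1 by field_simp,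
        neg_one_smul, sub_neg_eq_add] at this
  -- the slope is `O(h)`
  have hpb : ∀ i, |p i| ≤ 2 * h / ρ := by
    intro i
    have key : ∀ s : ℝ, |s| ≤ ρ → -(p i * s) ≤ 2 * h := fun s hs => by
      have hd : ‖(Pi.single i s : Fin n → ℝ)‖ ≤ ρ := by rwa [Pi.norm_single, Real.norm_eq_abs]
      have h1 := (hfull _ hd).2
      rw [capFun, add_sub_cancel_left, dotProduct_single] at h1
      linarith [neg_abs_le (u (x₀ + Pi.single i s) - u x₀), (hu0 _ (hd.trans (by linarith))).2]
    rw [le_div_iff₀ hρ0]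
    rcases le_total 0 (p i) with hi | hi
    · have := key (-ρ) (by rw [abs_neg, abs_of_pos hρ0])
      rw [abs_of_nonneg hi]; linarith
    · have := key ρ (by rw [abs_of_pos hρ0])
      rw [abs_of_nonpos hi]; linarith
  have hin : ∀ y ∈ closedBall x₀ r,
      y ∈ capSet u x₀ p h W ∧ 1 / 2 ≤ etaF u x₀ p h y := by
    intro y hy
    rw [mem_closedBall, dist_eq_norm] at hy
    have hy1 : y ∈ closedBall x₀ r₁ := by rw [mem_closedBall, dist_eq_norm]; linarith
    have hyW : y ∈ W := hball hy1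
    have hdu : |u y - u x₀| ≤ max M 0 := (hM y hy1).trans (le_max_left _ _)
    have hpy : |p ⬝ᵥ (y - x₀)| ≤ h / 4 := by
      refine (abs_dotProduct_le hpb hy (by positivity)).trans ?_
      have e : (n : ℝ) * (2 * h / ρ * r) = (n / (n + 1)) * (h / 4) := by
        rw [hrdef]; field_simp; ring
      rw [e]
      exact mul_le_of_le_one_left (by positivity) ((div_le_one (by positivity)).2 (by linarith))
    have hcf : capFun u x₀ p y ≤ h / 2 := by
      rw [capFun]
      linarith [le_abs_self (u y - u x₀), neg_abs_le (p ⬝ᵥ (y - x₀))]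
    refine ⟨⟨hyW, by linarith⟩, ?_⟩
    rw [etaF]
    linarith [(div_le_iff₀ hhpos).2 (show capFun u x₀ p y ≤ 1 / 2 * h by linarith)]
  refine ⟨?_, hin⟩
  have hsub : closedBall x₀ r ⊆ capSet u x₀ p h W := fun y hy => (hin y hy).1
  have hle := ENNReal.toReal_mono hp.cpt.measure_lt_top.ne (measure_mono (μ := volume) hsub)
  rwa [Real.volume_pi_closedBall x₀ (by positivity), Fintype.card_fin,
    ENNReal.toReal_ofReal (by positivity)] at hle

end

end Vale.Agent.P252.General
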