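import Vale.Agent.P252.Rigidity.General.Spec
import Vale.Agent.P252.Rigidity.General.CapUnif
import Vale.Agent.P252.Rigidity.General.Mass.Basic
import Vale.Agent.P252.Rigidity.Three.Glue
import Vale.Agent.P252.Rigidity.Conclude
import Vale.Agent.P252.Rigidity.IntParts

/-!
# Assembly of the rigidity theorem in the affine invariant case `q = 1/2`

The flux vanishes off the cap, so its divergence integrates to zero over the cap; the remainder is
at most `C h^(-deg/2)` times the cap mass, which is `O(h^(n/2))`.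
-/

namespace Vale.Agent.P252.General

open scoped ContDiff Topology Matrix
open MeasureTheory Filter Finset Rigidity
open Three (AM qQ logDet)

noncomputable section

variable {n : ℕ} {W : Set (Fin n → ℝ)} {u : (Fin n → ℝ) → ℝ} {x₀ p : Fin n → ℝ} {h : ℝ}

/-- A field vanishing where `η ≤ 0` has zero derivatives there, by convexity of the cap function. -/
lemma pd_eq_zero_of_etaF_nonpos (hu : AM W u) (hc : Convex ℝ W) (hh : 0 < h)
    {F : (Fin n → ℝ) → ℝ} (hF : ContDiffOn ℝ 1 F W)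
    (h0 : ∀ y ∈ W, etaF u x₀ p h y ≤ 0 → F y = 0) {y : Fin n → ℝ} (hy : y ∈ W)
    (hη : etaF u x₀ p h y ≤ 0) (i : Fin n) : pd i F y = 0 := by
  set e : Fin n → ℝ := Pi.single i 1 with he
  set g := capGrad u x₀ p y i
  set σ : ℝ := if 0 ≤ g then 1 else -1 with hσ
  have hσg : 0 ≤ σ * g := by
    simp only [hσ]
    split_ifs with hg
    · linarith
    · linarith [not_le.1 hg]
  have hσ0 : σ ≠ 0 := by
    simp only [hσ]
    split_ifs <;> norm_num
  have hcont : ContinuousAt (fun s : ℝ => y + s • (σ • e)) 0 := by fun_prop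
  have hev : ∀ᶠ s : ℝ in 𝓝[Set.Ici 0] 0, F (y + s • (σ • e)) = 0 := by
    have hW' : ∀ᶠ s : ℝ in 𝓝 0, y + s • (σ • e) ∈ W :=
      hcont.preimage_mem_nhds (hu.isOpen.mem_nhds (by simpa using hy))
    filter_upwards [nhdsWithin_le_nhds hW', self_mem_nhdsWithin] with s hs (hs0 : (0 : ℝ) ≤ s)
    refine h0 _ hs ?_
    have ht := Mass.capFun_tangent (x₀ := x₀) (p := p) hu hc hy hs
    rw [add_sub_cancel_left, dotProduct_smul, dotProduct_smul, he, dotProduct_single,
      smul_eq_mul, smul_eq_mul, mul_one] at ht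
    have hη' : 1 ≤ capFun u x₀ p y / h := by simp only [etaF] at hη; linarith
    simp only [etaF, sub_nonpos]
    refine hη'.trans (div_le_div_of_nonneg_right ?_ hh.le)
    nlinarith [mul_nonneg hs0 hσg]
  have hd : DifferentiableAt ℝ F y :=
    (hF.differentiableOn one_ne_zero y hy).differentiableAt (hu.isOpen.mem_nhds hy)
  have hline : HasDerivAt (fun s : ℝ => y + s • (σ • e)) (σ • e) 0 := by
    simpa using ((hasDerivAt_id (0 : ℝ)).smul_const (σ • e)).const_add y
  have hder : HasDerivAt (fun s : ℝ => F (y + s • (σ • e))) (fderiv ℝ F y (σ • e)) 0 :=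
    (by simpa using hd.hasFDerivAt : HasFDerivAt F (fderiv ℝ F y)
      (y + (0 : ℝ) • (σ • e))).comp_hasDerivAt 0 hline
  have hzero : HasDerivWithinAt (fun s : ℝ => F (y + s • (σ • e))) 0 (Set.Ici 0) 0 :=
    (hasDerivWithinAt_const (0 : ℝ) (Set.Ici (0 : ℝ)) (0 : ℝ)).congr_of_eventuallyEq hev
      (by simpa using h0 y hy hη)
  have h1 := (uniqueDiffWithinAt_Ici (0 : ℝ)).eq_deriv _ hder.hasDerivWithinAt hzero
  rw [map_smul, smul_eq_mul] at h1
  exact (mul_eq_zero.1 h1).resolve_left hσ0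

/-- The integrated flux inequality on a balanced cap. -/
theorem cap_integral_le {a m : ℕ} {q deg β : ℝ} (hdeg : 0 < deg) (hβ : 0 < β)
    (ha : (m : ℝ) + deg / 2 ≤ a) (hF : FluxBound n a q deg) :
    ∃ ε C : ℝ, 0 < ε ∧ 0 ≤ C ∧ ∀ {W : Set (Fin n → ℝ)} {u : (Fin n → ℝ) → ℝ}, AM W u →
      Convex ℝ W → ∀ (x₀ p : Fin n → ℝ) (h : ℝ), 0 < h → IsCap u x₀ p h β W →
        ε * ∫ y in capSet u x₀ p h W,
            max (etaF u x₀ p h y) 0 ^ a * (hess u y).det ^ q * qQ u y ^ (deg / 2) ≤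
          C * h ^ (-(deg / 2)) * capMass u x₀ p h W m q := by
  obtain ⟨ε, C, hε, hC, hI⟩ := hF
  set B := (1 + β⁻¹) ^ ((a : ℝ) - deg / 2 - m) with hB
  have hB0 : 0 ≤ B := Real.rpow_nonneg (by positivity) _
  refine ⟨ε, C * B, hε, by positivity, ?_⟩
  intro W u hu hc x₀ p h hh hcap
  obtain ⟨Φ, hΦs, hΦ0, hΦ⟩ := hI hu x₀ p h hh
  set K := capSet u x₀ p h W
  have hW := hu.isOpen
  have hKW : K ⊆ W := fun y hy => hy.1
  have hout : ∀ y ∈ W, y ∉ K → etaF u x₀ p h y ≤ 0 := fun y hy hyK => by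
    have hlt : h < capFun u x₀ p y := lt_of_not_ge fun hle => hyK ⟨hy, hle⟩
    rw [etaF, sub_nonpos, one_le_div hh]
    exact hlt.le
  set η := fun y => max (etaF u x₀ p h y) 0 with hη
  have hηc : ContinuousOn η W := (Mass.sm_etaF hu).continuousOn.sup continuousOn_const
  have hdc : ContinuousOn (fun y => (hess u y).det ^ q) W :=
    (sm_det (msm_hess hW hu.sm)).continuousOn.rpow_const fun y hy => Or.inl (hu.det_pos hy).ne'
  set g := fun y => η y ^ a * (hess u y).det ^ q * qQ u y ^ (deg / 2) with hg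
  set k := fun y => η y ^ m * (hess u y).det ^ q with hk
  set D := fun y => ∑ i, pd i (Φ i) y with hD
  have hgI : IntegrableOn (fun y => ε * g y) K :=
    ((continuousOn_const.mul (((hηc.pow a).mul hdc).mul
      (hu.sm_qQ.continuousOn.rpow_const fun _ _ => Or.inr (by positivity)))).mono hKW
        ).integrableOn_compact hcap.cpt
  have hkI : IntegrableOn (fun y => C * B * h ^ (-(deg / 2)) * k y) K :=
    ((continuousOn_const.mul ((hηc.pow m).mul hdc)).mono hKW).integrableOn_compact hcap.cpt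
  have hDI : IntegrableOn D K :=
    ((continuousOn_finsetSum _ fun i _ => continuousOn_pd hW (hΦs i) i).mono hKW
      ).integrableOn_compact hcap.cpt
  have hpt : ∀ y ∈ K, ε * g y - C * B * h ^ (-(deg / 2)) * k y ≤ D y := by
    intro y hy
    have hd0 : 0 ≤ (hess u y).det ^ q := Real.rpow_nonneg (hu.det_pos hy.1).le _
    have hkn : 0 ≤ C * B * h ^ (-(deg / 2)) * k y :=
      mul_nonneg (by positivity) (mul_nonneg (pow_nonneg (le_max_right _ _) _) hd0)
    rcases le_or_gt (etaF u x₀ p h y) 0 with hle | hpos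
    · have ha0 : a ≠ 0 := by
        rintro rfl
        simp only [Nat.cast_zero] at ha
        linarith [(m.cast_nonneg : (0 : ℝ) ≤ m)]
      have hD0 : D y = 0 := Finset.sum_eq_zero fun i _ =>
        pd_eq_zero_of_etaF_nonpos hu hc hh (hΦs i) (hΦ0 i) hy.1 hle i
      rw [hD0]
      simp only [g, η, max_eq_right hle, zero_pow ha0, zero_mul, mul_zero]
      linarith
    · set e := etaF u x₀ p h y with he
      have heB : e ^ (a : ℝ) * (h * e)⁻¹ ^ (deg / 2) ≤ B * h ^ (-(deg / 2)) * e ^ (m : ℝ) := by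
        rw [Real.inv_rpow (mul_pos hh hpos).le, ← Real.rpow_neg (mul_pos hh hpos).le,
          Real.mul_rpow hh.le hpos.le]
        have e1 : e ^ (a : ℝ) * e ^ (-(deg / 2)) = e ^ ((a : ℝ) - deg / 2 - m) * e ^ (m : ℝ) := by
          rw [← Real.rpow_add hpos, ← Real.rpow_add hpos]; ring_nf
        have e2 : e ^ ((a : ℝ) - deg / 2 - m) ≤ B :=
          Real.rpow_le_rpow hpos.le (Mass.etaF_le hu hc hh hβ hcap hy) (by linarith)
        calc e ^ (a : ℝ) * (h ^ (-(deg / 2)) * e ^ (-(deg / 2)))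
            = h ^ (-(deg / 2)) * (e ^ (a : ℝ) * e ^ (-(deg / 2))) := by ring
          _ = h ^ (-(deg / 2)) * (e ^ ((a : ℝ) - deg / 2 - m) * e ^ (m : ℝ)) := by rw [e1]
          _ ≤ h ^ (-(deg / 2)) * (B * e ^ (m : ℝ)) := by gcongr
          _ = _ := by ring
      rw [Real.rpow_natCast, Real.rpow_natCast] at heB
      have hkey := hΦ y hy.1 hpos
      simp only [g, k, η, max_eq_left hpos.le, ← he]
      rw [← he] at hkey
      nlinarith [mul_le_mul_of_nonneg_left heB (mul_nonneg hC hd0)]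
  have hdiv : ∫ y in K, D y = 0 := by
    rw [← setIntegral_eq_of_subset_of_forall_sdiff_eq_zero hW.measurableSet hKW fun y hy =>
      Finset.sum_eq_zero fun i _ =>
        pd_eq_zero_of_etaF_nonpos hu hc hh (hΦs i) (hΦ0 i) hy.1 (hout y hy.1 hy.2) i]
    exact setIntegral_div_eq_zero hW hcap.cpt hKW hΦs fun i y hy hyK => hΦ0 i y hy (hout y hy hyK)
  have h1 := setIntegral_mono_on (hgI.sub hkI) hDI hcap.cpt.measurableSet hpt
  rw [hdiv, integral_sub' hgI hkI, sub_nonpos, integral_const_mul, integral_const_mul] at h1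
  exact h1

/-- `D log det D²u` vanishes, for a weight exponent `q = 1/2`. -/
theorem qQ_eq_zero {a m : ℕ} {deg β : ℝ} (hdn : (n : ℝ) < deg) (hβ : 0 < β)
    (ha : (m : ℝ) + deg / 2 ≤ a) (hF : FluxBound n a (1 / 2) deg) (hcap : CapExists n β)
    (hM : MassBound n β m (1 / 2)) (hu : AM W u) (hc : Convex ℝ W)
    (hcl : ∀ R, IsClosed {x | x ∈ W ∧ u x ≤ R}) (h0 : x₀ ∈ W) : qQ u x₀ = 0 := by
  have hdeg : 0 < deg := lt_of_le_of_lt n.cast_nonneg hdn
  obtain ⟨ε, C, hε, hC, hI⟩ := cap_integral_le hdeg hβ ha hF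
  obtain ⟨C₂, hC₂, hB⟩ := hM
  obtain ⟨r, h₁, c, hr, hh₁, hc0, hU⟩ := cap_uniform hβ hu h0
  have hW := hu.isOpen
  set f : (Fin n → ℝ) → ℝ := fun y => (hess u y).det ^ (1 / 2 : ℝ) * qQ u y ^ (deg / 2)
  have hfnn : ∀ y ∈ W, 0 ≤ f y := fun y hy =>
    mul_nonneg (Real.rpow_nonneg (hu.det_pos hy).le _) (Real.rpow_nonneg (hu.qQ_nonneg hy) _)
  have hfc : ContinuousOn f W :=
    ((sm_det (msm_hess hW hu.sm)).continuousOn.rpow_const fun y hy =>
      Or.inl (hu.det_pos hy).ne').mul
        (hu.sm_qQ.continuousOn.rpow_const fun _ _ => Or.inr (by positivity))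
  obtain ⟨p₁, hp₁⟩ := hcap hu hc hcl x₀ h0 h₁ hh₁
  have hBW : Metric.closedBall x₀ r ⊆ W := fun y hy => ((hU h₁ le_rfl p₁ hp₁).2 y hy).1.1
  have hfI : IntegrableOn f (Metric.closedBall x₀ r) :=
    (hfc.mono hBW).integrableOn_compact (isCompact_closedBall x₀ r)
  set I := ∫ y in Metric.closedBall x₀ r, f y
  set A := C * C₂
  have hA : ∀ h, h₁ ≤ h → ε * (1 / 2) ^ a * I ≤ A * h ^ (-((deg - n) / 2)) := by
    intro h hh1
    have hh : 0 < h := hh₁.trans_le hh1
    obtain ⟨p, hp⟩ := hcap hu hc hcl x₀ h0 h hh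
    obtain ⟨-, hball⟩ := hU h hh1 p hp
    set K := capSet u x₀ p h W
    have hKW : K ⊆ W := fun y hy => hy.1
    set g : (Fin n → ℝ) → ℝ := fun y =>
      max (etaF u x₀ p h y) 0 ^ a * (hess u y).det ^ (1 / 2 : ℝ) * qQ u y ^ (deg / 2)
    have hgc : ContinuousOn g W :=
      ((((Mass.sm_etaF hu).continuousOn.sup continuousOn_const).pow a).mul
        ((sm_det (msm_hess hW hu.sm)).continuousOn.rpow_const fun y hy =>
            Or.inl (hu.det_pos hy).ne')).mul
        (hu.sm_qQ.continuousOn.rpow_const fun _ _ => Or.inr (by positivity))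
    have hgI : IntegrableOn g K := (hgc.mono hKW).integrableOn_compact hp.cpt
    have hgnn : ∀ y ∈ K, 0 ≤ g y := fun y hy =>
      mul_nonneg (mul_nonneg (pow_nonneg (le_max_right _ _) _)
        (Real.rpow_nonneg (hu.det_pos hy.1).le _)) (Real.rpow_nonneg (hu.qQ_nonneg hy.1) _)
    have hsub : Metric.closedBall x₀ r ⊆ K := fun y hy => (hball y hy).1
    have h2 : (1 / 2) ^ a * I ≤ ∫ y in K, g y := by
      rw [← integral_const_mul]
      refine (setIntegral_mono_on (hfI.const_mul _) (hgI.mono_set hsub)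
        measurableSet_closedBall fun y hy => ?_).trans (setIntegral_mono_set hgI
          ((ae_restrict_mem hp.cpt.measurableSet).mono hgnn) hsub.eventuallyLE)
      have e1 : (1 / 2 : ℝ) ^ a ≤ max (etaF u x₀ p h y) 0 ^ a :=
        pow_le_pow_left₀ (by norm_num) ((hball y hy).2.trans (le_max_left _ _)) a
      calc (1 / 2) ^ a * f y ≤ max (etaF u x₀ p h y) 0 ^ a * f y :=
            mul_le_mul_of_nonneg_right e1 (hfnn y (hBW hy))
        _ = g y := by simp only [g, f]; ring
    have h3 : capMass u x₀ p h W m (1 / 2) ≤ C₂ * h ^ ((n : ℝ) / 2) := by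
      refine (hB hu hc x₀ h0 p h hh hp).trans (le_of_eq ?_)
      rw [show (1 : ℝ) - 2 * (1 / 2) = 0 by norm_num, Real.rpow_zero, mul_one,
        show (n : ℝ) * (1 / 2) = n / 2 by ring]
    calc ε * (1 / 2) ^ a * I ≤ ε * ∫ y in K, g y := by
          rw [mul_assoc]; exact mul_le_mul_of_nonneg_left h2 hε.le
      _ ≤ C * h ^ (-(deg / 2)) * (C₂ * h ^ ((n : ℝ) / 2)) :=
          (hI hu hc x₀ p h hh hp).trans (mul_le_mul_of_nonneg_left h3
            (mul_nonneg hC (Real.rpow_nonneg hh.le _)))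
      _ = A * h ^ (-((deg - n) / 2)) := by
          rw [show -((deg - n) / 2) = -(deg / 2) + (n : ℝ) / 2 by ring, Real.rpow_add hh]
          ring
  have hI0 : I ≤ 0 := by
    have hlim : Tendsto (fun h : ℝ => A * h ^ (-((deg - n) / 2))) atTop (𝓝 0) := by
      simpa using (tendsto_rpow_neg_atTop (show 0 < (deg - n) / 2 by linarith)).const_mul A
    have := ge_of_tendsto hlim ((eventually_ge_atTop h₁).mono hA)
    exact nonpos_of_mul_nonpos_right this (by positivity)
  by_contra hne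
  have hpos : 0 < f x₀ := mul_pos (Real.rpow_pos_of_pos (hu.det_pos h0) _)
    (Real.rpow_pos_of_pos ((hu.qQ_nonneg h0).lt_of_ne' hne) _)
  obtain ⟨s, hs, hsball⟩ := Metric.mem_nhds_iff.1 (Filter.inter_mem
    (Metric.closedBall_mem_nhds x₀ hr)
    ((hfc.continuousAt (hW.mem_nhds h0)).eventually_const_le (half_lt_self hpos)))
  have hsub : Metric.ball x₀ s ⊆ Metric.closedBall x₀ r := fun y hy => (hsball hy).1
  have h4 := setIntegral_mono_on (μ := volume) (f := fun _ => f x₀ / 2)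
    (integrableOn_const measure_ball_lt_top.ne) (hfI.mono_set hsub) measurableSet_ball
    fun y hy => (hsball hy).2
  have h5 := setIntegral_mono_set hfI ((ae_restrict_mem measurableSet_closedBall).mono
    fun y hy => hfnn y (hBW hy)) hsub.eventuallyLE
  rw [setIntegral_const, smul_eq_mul] at h4
  have h6 : 0 < volume.real (Metric.ball x₀ s) * (f x₀ / 2) :=
    mul_pos (ENNReal.toReal_pos (Metric.measure_ball_pos volume x₀ hs).ne' measure_ball_lt_top.ne)
      (by positivity)
  linarith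

/-- The assembly: a flux bound with `q = 1/2` and degree above `n` gives rigidity. -/
theorem halfAssembly (n : ℕ) : HalfAssemblyGoal n := by
  intro a m deg β hn hdn hβ ha hF hcap hM W u hu hne hc hcomp
  have hcl := isClosed_sublevel_of_complete hu.isOpen hc hu.sm hu.pos hcomp
  obtain ⟨x₁, h1⟩ := hne
  have hconst := eq_const_of_pd_eq_zero hu.isOpen hc.isPreconnected hu.sm_logDet
    (fun y hy k => hu.pd_logDet_eq_zero hy (qQ_eq_zero hdn hβ ha hF hcap hM hu hc hcl hy) k) h1
  exact entire_quadratic_of_det_const (d := (hess u x₁).det) hn hu.isOpen ⟨x₁, h1⟩ hc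
    hu.sm hu.pos hcl fun y hy =>
      Real.log_injOn_pos (Set.mem_Ioi.2 (hu.det_pos hy)) (Set.mem_Ioi.2 (hu.det_pos h1))
        (hconst y hy)

end

end Vale.Agent.P252.General
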