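import Vale.Agent.P252.Rigidity.General.Assembly

/-!
# Assembly of the rigidity theorem for weight exponents other than `1/2`

For `q < 1/2` the volume bound turns the cap mass into `O(h^(n/2))`; for `q > 1/2` the volume of
a large cap is bounded below, so the cap mass is `O(h^(nq))`.
-/

namespace Vale.Agent.P252.General

open scoped ContDiff Topology Matrix
open MeasureTheory Filter Finset Rigidity
open Three (AM qQ logDet)

noncomputable section

variable {n : ℕ} {W : Set (Fin n → ℝ)} {u : (Fin n → ℝ) → ℝ} {x₀ : Fin n → ℝ}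

/-- `D log det D²u` vanishes where the cap mass grows slower than `h ^ (deg / 2)`. -/
theorem qQ_eq_zero_of_growth {a m : ℕ} {q deg β s : ℝ} (hdeg : 0 < deg) (hβ : 0 < β)
    (ha : (m : ℝ) + deg / 2 ≤ a) (hF : FluxBound n a q deg) (hcap : CapExists n β)
    (hu : AM W u) (hc : Convex ℝ W) (hcl : ∀ R, IsClosed {x | x ∈ W ∧ u x ≤ R}) (h0 : x₀ ∈ W)
    (hs : s < deg / 2)
    (hB : ∃ C₂ h₂ : ℝ, ∀ h : ℝ, 0 < h → h₂ ≤ h → ∀ p, IsCap u x₀ p h β W →
      capMass u x₀ p h W m q ≤ C₂ * h ^ s) : qQ u x₀ = 0 := by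
  obtain ⟨ε, C, hε, hC, hI⟩ := cap_integral_le hdeg hβ ha hF
  obtain ⟨C₂, h₂, hB⟩ := hB
  obtain ⟨r, h₁, c, hr, hh₁, hc0, hU⟩ := cap_uniform hβ hu h0
  have hW := hu.isOpen
  set f : (Fin n → ℝ) → ℝ := fun y => (hess u y).det ^ q * qQ u y ^ (deg / 2)
  have hfnn : ∀ y ∈ W, 0 ≤ f y := fun y hy =>
    mul_nonneg (Real.rpow_nonneg (hu.det_pos hy).le _) (Real.rpow_nonneg (hu.qQ_nonneg hy) _)
  have hfc : ContinuousOn f W :=
    ((sm_det (msm_hess hW hu.sm)).continuousOn.rpow_const fun y hy =>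
      Or.inl (hu.det_pos hy).ne').mul
        (hu.sm_qQ.continuousOn.rpow_const fun _ _ => Or.inr (by positivity))
  obtain ⟨p₁, hp₁⟩ := hcap hu hc hcl x₀ h0 h₁ hh₁
  have hBW : Metric.closedBall x₀ r ⊆ W := fun y hy => ((hU h₁ le_rfl p₁ hp₁).2 y hy).1.1
  have hfI : IntegrableOn f (Metric.closedBall x₀ r) :=
    (hfc.mono hBW).integrableOn_compact (isCompact_closedBall x₀ r)
  set I := ∫ y in Metric.closedBall x₀ r, f y
  set A := C * C₂
  have hA : ∀ h, max h₁ h₂ ≤ h → ε * (1 / 2) ^ a * I ≤ A * h ^ (-(deg / 2 - s)) := by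
    intro h hh12
    have hh1 : h₁ ≤ h := (le_max_left _ _).trans hh12
    have hh : 0 < h := hh₁.trans_le hh1
    obtain ⟨p, hp⟩ := hcap hu hc hcl x₀ h0 h hh
    obtain ⟨-, hball⟩ := hU h hh1 p hp
    set K := capSet u x₀ p h W
    have hKW : K ⊆ W := fun y hy => hy.1
    set g : (Fin n → ℝ) → ℝ := fun y =>
      max (etaF u x₀ p h y) 0 ^ a * (hess u y).det ^ q * qQ u y ^ (deg / 2)
    have hgc : ContinuousOn g W :=
      ((((Mass.sm_etaF hu).continuousOn.sup continuousOn_const).pow a).mul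
        ((sm_det (msm_hess hW hu.sm)).continuousOn.rpow_const fun y hy =>
            Or.inl (hu.det_pos hy).ne')).mul
        (hu.sm_qQ.continuousOn.rpow_const fun _ _ => Or.inr (by positivity))
    have hgI : IntegrableOn g K := (hgc.mono hKW).integrableOn_compact hp.cpt
    have hgnn : ∀ y ∈ K, 0 ≤ g y := fun y hy =>
      mul_nonneg (mul_nonneg (pow_nonneg (le_max_right _ _) _)
        (Real.rpow_nonneg (hu.det_pos hy.1).le _)) (Real.rpow_nonneg (hu.qQ_nonneg hy.1) _)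
    have hsub : Metric.closedBall x₀ r ⊆ K := fun y hy => (hball y hy).1
    have h2 : (1 / 2) ^ a * I ≤ ∫ y in K, g y := by
      rw [← integral_const_mul]
      refine (setIntegral_mono_on (hfI.const_mul _) (hgI.mono_set hsub)
        measurableSet_closedBall fun y hy => ?_).trans (setIntegral_mono_set hgI
          ((ae_restrict_mem hp.cpt.measurableSet).mono hgnn) hsub.eventuallyLE)
      have e1 : (1 / 2 : ℝ) ^ a ≤ max (etaF u x₀ p h y) 0 ^ a :=
        pow_le_pow_left₀ (by norm_num) ((hball y hy).2.trans (le_max_left _ _)) a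
      calc (1 / 2) ^ a * f y ≤ max (etaF u x₀ p h y) 0 ^ a * f y :=
            mul_le_mul_of_nonneg_right e1 (hfnn y (hBW hy))
        _ = g y := by simp only [g, f]; ring
    have h3 : capMass u x₀ p h W m q ≤ C₂ * h ^ s :=
      hB h hh ((le_max_right _ _).trans hh12) p hp
    calc ε * (1 / 2) ^ a * I ≤ ε * ∫ y in K, g y := by
          rw [mul_assoc]; exact mul_le_mul_of_nonneg_left h2 hε.le
      _ ≤ C * h ^ (-(deg / 2)) * (C₂ * h ^ s) :=
          (hI hu hc x₀ p h hh hp).trans (mul_le_mul_of_nonneg_left h3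
            (mul_nonneg hC (Real.rpow_nonneg hh.le _)))
      _ = A * h ^ (-(deg / 2 - s)) := by
          rw [show -(deg / 2 - s) = -(deg / 2) + s by ring, Real.rpow_add hh]
          ring
  have hI0 : I ≤ 0 := by
    have hlim : Tendsto (fun h : ℝ => A * h ^ (-(deg / 2 - s))) atTop (𝓝 0) := by
      simpa using (tendsto_rpow_neg_atTop (sub_pos.2 hs)).const_mul A
    have := ge_of_tendsto hlim ((eventually_ge_atTop (max h₁ h₂)).mono hA)
    exact nonpos_of_mul_nonpos_right this (by positivity)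
  by_contra hne
  have hpos : 0 < f x₀ := mul_pos (Real.rpow_pos_of_pos (hu.det_pos h0) _)
    (Real.rpow_pos_of_pos ((hu.qQ_nonneg h0).lt_of_ne' hne) _)
  obtain ⟨σ, hσ, hsball⟩ := Metric.mem_nhds_iff.1 (Filter.inter_mem
    (Metric.closedBall_mem_nhds x₀ hr)
    ((hfc.continuousAt (hW.mem_nhds h0)).eventually_const_le (half_lt_self hpos)))
  have hsub : Metric.ball x₀ σ ⊆ Metric.closedBall x₀ r := fun y hy => (hsball hy).1
  have h4 := setIntegral_mono_on (μ := volume) (f := fun _ => f x₀ / 2)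
    (integrableOn_const measure_ball_lt_top.ne) (hfI.mono_set hsub) measurableSet_ball
    fun y hy => (hsball hy).2
  have h5 := setIntegral_mono_set hfI ((ae_restrict_mem measurableSet_closedBall).mono
    fun y hy => hfnn y (hBW hy)) hsub.eventuallyLE
  rw [setIntegral_const, smul_eq_mul] at h4
  have h6 : 0 < volume.real (Metric.ball x₀ σ) * (f x₀ / 2) :=
    mul_pos (ENNReal.toReal_pos (Metric.measure_ball_pos volume x₀ hσ).ne' measure_ball_lt_top.ne)
      (by positivity)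
  linarith

/-- Vanishing of `D log det D²u` gives rigidity. -/
theorem rigid_of_qQ_eq_zero (hn : 0 < n)
    (hQ : ∀ {W : Set (Fin n → ℝ)} {u : (Fin n → ℝ) → ℝ}, AM W u → Convex ℝ W →
      (∀ R, IsClosed {x | x ∈ W ∧ u x ≤ R}) → ∀ y ∈ W, qQ u y = 0) : Rigid n := by
  intro W u hu hne hc hcomp
  have hcl := isClosed_sublevel_of_complete hu.isOpen hc hu.sm hu.pos hcomp
  obtain ⟨x₁, h1⟩ := hne
  have hconst := eq_const_of_pd_eq_zero hu.isOpen hc.isPreconnected hu.sm_logDet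
    (fun y hy k => hu.pd_logDet_eq_zero hy (hQ hu hc hcl y hy) k) h1
  exact entire_quadratic_of_det_const (d := (hess u x₁).det) hn hu.isOpen ⟨x₁, h1⟩ hc
    hu.sm hu.pos hcl fun y hy =>
      Real.log_injOn_pos (Set.mem_Ioi.2 (hu.det_pos hy)) (Set.mem_Ioi.2 (hu.det_pos h1))
        (hconst y hy)

/-- The assembly for `q ≤ 1/2`: with the volume bound, degree above `n` gives rigidity. -/
theorem lowAssembly {a m : ℕ} {q deg β : ℝ} (hn : 0 < n) (hdn : (n : ℝ) < deg) (hβ : 0 < β)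
    (hq : q ≤ 1 / 2) (ha : (m : ℝ) + deg / 2 ≤ a) (hF : FluxBound n a q deg)
    (hcap : CapExists n β) (hM : MassBound n β m q) (hV : VolumeBound n β) : Rigid n := by
  refine rigid_of_qQ_eq_zero hn fun {W u} hu hc hcl y hy => ?_
  obtain ⟨C, hC, hM⟩ := hM
  obtain ⟨D, hD, hV⟩ := hV
  have hdeg : 0 < deg := lt_of_le_of_lt n.cast_nonneg hdn
  set d := (hess u y).det
  have hd : 0 < d := hu.det_pos hy
  refine qQ_eq_zero_of_growth hdeg hβ ha hF hcap hu hc hcl hy
    (show (n : ℝ) / 2 < deg / 2 by linarith)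
    ⟨C * (Real.sqrt (D / d)) ^ (1 - 2 * q), 0, fun h hh _ p hp => ?_⟩
  set V := (volume (capSet u y p h W)).toReal
  have hV0 : 0 ≤ V := ENNReal.toReal_nonneg
  have hV1 : V ≤ Real.sqrt (D / d) * h ^ ((n : ℝ) / 2) := by
    have h1 : V ^ 2 ≤ D / d * h ^ n := by
      rw [div_mul_eq_mul_div, le_div_iff₀ hd, mul_comm]
      exact hV hu hc y hy p h hh hp
    have h2 : Real.sqrt (D / d) * h ^ ((n : ℝ) / 2) = Real.sqrt (D / d * h ^ n) := by
      rw [Real.sqrt_mul (div_nonneg hD hd.le), Real.sqrt_eq_rpow (h ^ n), ← Real.rpow_natCast h n,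
        ← Real.rpow_mul hh.le]
      ring_nf
    rw [h2]
    exact Real.le_sqrt_of_sq_le h1
  have hs : 0 ≤ 1 - 2 * q := by linarith
  calc capMass u y p h W m q ≤ C * h ^ ((n : ℝ) * q) * V ^ (1 - 2 * q) := hM hu hc y hy p h hh hp
    _ ≤ C * h ^ ((n : ℝ) * q) * (Real.sqrt (D / d) * h ^ ((n : ℝ) / 2)) ^ (1 - 2 * q) :=
        mul_le_mul_of_nonneg_left (Real.rpow_le_rpow hV0 hV1 hs)
          (mul_nonneg hC (Real.rpow_nonneg hh.le _))
    _ = C * (Real.sqrt (D / d)) ^ (1 - 2 * q) * h ^ ((n : ℝ) / 2) := by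
        rw [Real.mul_rpow (Real.sqrt_nonneg _) (Real.rpow_nonneg hh.le _), ← Real.rpow_mul hh.le,
          show (n : ℝ) / 2 = (n : ℝ) * q + (n : ℝ) / 2 * (1 - 2 * q) by ring, Real.rpow_add hh]
        ring_nf

/-- The assembly for `q ≥ 1/2`: degree above `2nq` gives rigidity. -/
theorem highAssembly {a m : ℕ} {q deg β : ℝ} (hn : 0 < n) (hdn : 2 * ((n : ℝ) * q) < deg)
    (hβ : 0 < β) (hq : 1 / 2 ≤ q) (ha : (m : ℝ) + deg / 2 ≤ a) (hF : FluxBound n a q deg)
    (hcap : CapExists n β) (hM : MassBound n β m q) : Rigid n := by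
  refine rigid_of_qQ_eq_zero hn fun {W u} hu hc hcl y hy => ?_
  obtain ⟨C, hC, hM⟩ := hM
  have hn' : (0 : ℝ) < n := Nat.cast_pos.2 hn
  have hdeg : 0 < deg := by nlinarith
  obtain ⟨r, h₁, c, -, hh₁, hc0, hU⟩ := cap_uniform hβ hu hy
  refine qQ_eq_zero_of_growth hdeg hβ ha hF hcap hu hc hcl hy
    (show (n : ℝ) * q < deg / 2 by linarith)
    ⟨C * c ^ (1 - 2 * q), h₁, fun h hh hh1 p hp => ?_⟩
  calc capMass u y p h W m q
      ≤ C * h ^ ((n : ℝ) * q) * (volume (capSet u y p h W)).toReal ^ (1 - 2 * q) :=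
        hM hu hc y hy p h hh hp
    _ ≤ C * h ^ ((n : ℝ) * q) * c ^ (1 - 2 * q) :=
        mul_le_mul_of_nonneg_left
          (Real.rpow_le_rpow_of_nonpos hc0 (hU h hh1 p hp).1 (by linarith))
          (mul_nonneg hC (Real.rpow_nonneg hh.le _))
    _ = _ := by ring

end

end Vale.Agent.P252.General
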