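import Vale.Agent.P252.Rigidity.General.Spec

/-!
# The normal frame of a jet

An orthogonal change of coordinates changes neither the validity of a jet nor its flux; one puts
`Z z` on the first axis and the other covector in the span of the first two axes, on the
nonnegative sides.
-/

namespace Vale.Agent.P252.General

open scoped Matrix RealInnerProductSpace
open Finset InnerProductSpace

set_option linter.unusedSectionVars false

noncomputable section

variable {n : ℕ}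

namespace Jet

/-- The jet in orthogonally changed coordinates. -/
def rot (R : Matrix (Fin n) (Fin n) ℝ) (J : Jet n) : Jet n where
  T i := R * (∑ a, R i a • J.T a) * Rᵀ
  H := R * J.H * Rᵀ
  t := R *ᵥ J.t
  v := R *ᵥ J.v
  e := J.e

variable {R : Matrix (Fin n) (Fin n) ℝ} {J : Jet n} (hR : Rᵀ * R = 1) (hR' : R * Rᵀ = 1)

include hR in
lemma dot_rot (x y : Fin n → ℝ) : (R *ᵥ x) ⬝ᵥ (R *ᵥ y) = x ⬝ᵥ y := by
  rw [Matrix.dotProduct_mulVec, ← Matrix.mulVec_transpose, Matrix.mulVec_mulVec, hR,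
    Matrix.one_mulVec]

include hR in
lemma conj_mulVec (M : Matrix (Fin n) (Fin n) ℝ) (x : Fin n → ℝ) :
    (R * M * Rᵀ) *ᵥ (R *ᵥ x) = R *ᵥ (M *ᵥ x) := by
  rw [Matrix.mulVec_mulVec, Matrix.mulVec_mulVec, Matrix.mul_assoc, hR, Matrix.mul_one]

include hR in
lemma conj_mul (M N : Matrix (Fin n) (Fin n) ℝ) :
    (R * M * Rᵀ) * (R * N * Rᵀ) = R * (M * N) * Rᵀ := by
  calc (R * M * Rᵀ) * (R * N * Rᵀ) = R * M * (Rᵀ * R) * N * Rᵀ := by
        simp only [Matrix.mul_assoc]
    _ = R * (M * N) * Rᵀ := by rw [hR, Matrix.mul_one]; simp only [Matrix.mul_assoc]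

include hR in
lemma trace_conj (M : Matrix (Fin n) (Fin n) ℝ) : (R * M * Rᵀ).trace = M.trace := by
  rw [Matrix.trace_mul_comm, ← Matrix.mul_assoc, hR, Matrix.one_mul]

lemma conj_vecMulVec (x y : Fin n → ℝ) :
    R * Matrix.vecMulVec x y * Rᵀ = Matrix.vecMulVec (R *ᵥ x) (R *ᵥ y) := by
  rw [Matrix.mul_vecMulVec, Matrix.vecMulVec_mul, Matrix.vecMul_transpose]

lemma conj_transpose (M : Matrix (Fin n) (Fin n) ℝ) : (R * M * Rᵀ)ᵀ = R * Mᵀ * Rᵀ := by
  simp [Matrix.transpose_mul, Matrix.mul_assoc]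

lemma rot_Z (z : Fin 2) : (J.rot R).Z z = R *ᵥ J.Z z := by fin_cases z <;> rfl

include hR in
lemma rot_C (z : Fin 2) : (J.rot R).C z = R * J.C z * Rᵀ := by
  have h : ∀ a, ∑ i, (R *ᵥ J.Z z) i * R i a = J.Z z a := fun a => by
    have := congrFun (show (R *ᵥ J.Z z) ᵥ* R = J.Z z by
      rw [← Matrix.mulVec_transpose, Matrix.mulVec_mulVec, hR, Matrix.one_mulVec]) a
    simpa [Matrix.vecMul, dotProduct] using this
  calc (J.rot R).C z = ∑ i, (R *ᵥ J.Z z) i • (R * (∑ a, R i a • J.T a) * Rᵀ) := by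
        simp only [Jet.C, rot_Z]; rfl
    _ = ∑ i, ∑ a, ((R *ᵥ J.Z z) i * R i a) • (R * J.T a * Rᵀ) := by
        refine Finset.sum_congr rfl fun i _ => ?_
        simp only [Finset.mul_sum, Finset.sum_mul, Finset.smul_sum, Matrix.mul_smul,
          Matrix.smul_mul, smul_smul]
    _ = ∑ a, J.Z z a • (R * J.T a * Rᵀ) := by
        rw [Finset.sum_comm]
        refine Finset.sum_congr rfl fun a _ => ?_
        rw [← Finset.sum_smul, h a]
    _ = R * J.C z * Rᵀ := by
        simp only [Jet.C, Finset.mul_sum, Finset.sum_mul, Matrix.mul_smul, Matrix.smul_mul]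

include hR' in
lemma rot_dl (z : Fin 2) : (J.rot R).dl z = R * J.dl z * Rᵀ := by
  fin_cases z
  · rfl
  · show -Matrix.vecMulVec (R *ᵥ J.v) (R *ᵥ J.v) - J.e • (1 : Matrix (Fin n) (Fin n) ℝ) =
      R * (-Matrix.vecMulVec J.v J.v - J.e • (1 : Matrix (Fin n) (Fin n) ℝ)) * Rᵀ
    rw [Matrix.mul_sub, Matrix.sub_mul, Matrix.mul_neg, Matrix.neg_mul, conj_vecMulVec,
      Matrix.mul_smul, Matrix.smul_mul, Matrix.mul_one, hR']

include hR hR'

lemma rot_du (z : Fin 2) : (J.rot R).du z = R * J.du z * Rᵀ := by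
  rw [Jet.du, Jet.du, rot_dl hR', rot_C hR, Matrix.mul_sub, Matrix.sub_mul]

lemma rot_dW (P : Params) : (J.rot R).dW P = R *ᵥ J.dW P := by
  simp [Jet.dW, rot, Matrix.mulVec_add, Matrix.mulVec_smul]

lemma rot_d (a b : Fin 2) : (J.rot R).d a b = J.d a b := by
  simp [Jet.d, rot_Z, dot_rot hR]

lemma rot_dd (a b : Fin 2) : (J.rot R).dd a b = R *ᵥ J.dd a b := by
  simp only [Jet.dd, rot_Z, rot_dl hR', rot_du hR hR', conj_mulVec hR, Matrix.mulVec_add]

lemma rot_gradH (a b : Fin 2) : (J.rot R).gradH a b = R *ᵥ J.gradH a b := by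
  simp only [Jet.gradH, rot_du hR hR', rot_Z, show (J.rot R).H = R * J.H * Rᵀ from rfl,
    conj_mulVec hR, Matrix.mulVec_add]

lemma rot_gradT (a b c : Fin 2) : (J.rot R).gradT a b c = R *ᵥ J.gradT a b c := by
  simp only [Jet.gradT, rot_du hR hR', rot_C hR, rot_Z, conj_mulVec hR, Matrix.mulVec_add]

lemma rot_baseY (B : Base) : (J.rot R).baseY B = R *ᵥ J.baseY B := by
  have hH : (J.rot R).H = R * J.H * Rᵀ := rfl
  cases B <;>
    simp only [Jet.baseY, rot_Z, rot_C hR, hH, conj_mulVec hR, dot_rot hR, Matrix.mulVec_sub,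
      Matrix.mulVec_smul]

lemma rot_baseDiv (B : Base) : (J.rot R).baseDiv B = J.baseDiv B := by
  have hH : (J.rot R).H = R * J.H * Rᵀ := rfl
  have ht : (J.rot R).t = R *ᵥ J.t := rfl
  have hlin : (2 : ℝ) • (R * J.H * Rᵀ) - R * J.C 0 * Rᵀ = R * ((2 : ℝ) • J.H - J.C 0) * Rᵀ := by
    rw [Matrix.mul_sub, Matrix.sub_mul, Matrix.mul_smul, Matrix.smul_mul]
  cases B <;>
    simp only [Jet.baseDiv, rot_Z, rot_C hR, rot_dl hR', rot_du hR hR', rot_gradH hR hR',
      rot_gradT hR hR', hH, ht, hlin, conj_mulVec hR, conj_mul hR, trace_conj hR, dot_rot hR]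

lemma rot_mono (T : Term) : (J.rot R).mono T = J.mono T := by
  simp only [Jet.mono, rot_d hR hR']

lemma rot_dmono (T : Term) : (J.rot R).dmono T = R *ᵥ J.dmono T := by
  simp only [Jet.dmono, rot_d hR hR', rot_dd hR hR', Matrix.mulVec_add, Matrix.mulVec_smul]

lemma rot_polyY (P : Params) : (J.rot R).polyY P = R *ᵥ J.polyY P := by
  unfold Jet.polyY
  induction P.terms with
  | nil => simp
  | cons T l ih =>
    rw [List.map_cons, List.map_cons, List.sum_cons, List.sum_cons, ih, rot_mono hR hR',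
      rot_baseY hR hR', Matrix.mulVec_add, Matrix.mulVec_smul]

lemma rot_polyDiv (P : Params) : (J.rot R).polyDiv P = J.polyDiv P := by
  unfold Jet.polyDiv
  refine congrArg List.sum (List.map_congr_left fun T _ => ?_)
  rw [rot_mono hR hR', rot_baseDiv hR hR', rot_dW hR hR', rot_baseY hR hR', rot_dmono hR hR',
    dot_rot hR, dot_rot hR]

/-- The flux does not depend on the frame. -/
theorem rot_flux (P : Params) : (J.rot R).flux P = J.flux P := by
  have hF : (J.rot R).bigF P = J.bigF P := by simp only [Jet.bigF, rot_d hR hR']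
  have hdF : (J.rot R).dF P = R *ᵥ J.dF P := by
    simp only [Jet.dF, rot_dd hR hR', Matrix.mulVec_add, Matrix.mulVec_smul]
  rw [Jet.flux, Jet.flux, hF, rot_polyDiv hR hR', hdF, rot_polyY hR hR', dot_rot hR]

/-- Validity does not depend on the frame. -/
theorem rot_valid (hJ : J.Valid) : (J.rot R).Valid := by
  have hTT : ∀ i, (J.T i)ᵀ = J.T i := fun i =>
    Matrix.ext fun b c => (hJ.symT i c b).2
  have hsum : ∀ i, (∑ a, R i a • J.T a)ᵀ = ∑ a, R i a • J.T a := fun i => by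
    rw [Matrix.transpose_sum]
    simp only [Matrix.transpose_smul, hTT]
  have hexp : ∀ a b c, (J.rot R).T a b c = ∑ i, ∑ j, ∑ k, R a i * R b j * R c k * J.T i j k := by
    intro a b c
    show (R * (∑ i, R a i • J.T i) * Rᵀ) b c = _
    simp only [Finset.mul_sum, Finset.sum_mul, Matrix.sum_apply, Matrix.mul_smul,
      Matrix.smul_apply, smul_eq_mul, Matrix.mul_apply, Matrix.transpose_apply]
    rw [Finset.sum_comm]
    refine Finset.sum_congr rfl fun i _ => ?_
    rw [Finset.sum_comm]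
    refine Finset.sum_congr rfl fun j _ => Finset.sum_congr rfl fun k _ => ?_
    ring
  refine ⟨fun a b c => ⟨?_, ?_⟩, ?_, fun k => ?_, ?_, hJ.e_pos⟩
  · rw [hexp, hexp, Finset.sum_comm]
    refine Finset.sum_congr rfl fun i _ => Finset.sum_congr rfl fun j _ =>
      Finset.sum_congr rfl fun k _ => ?_
    rw [(hJ.symT j i k).1]
    ring
  · have h := congrFun (congrFun (show ((J.rot R).T a)ᵀ = (J.rot R).T a by
      show (R * _ * Rᵀ)ᵀ = R * _ * Rᵀ
      rw [conj_transpose, hsum]) c) b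
    rwa [Matrix.transpose_apply] at h
  · show (R * J.H * Rᵀ)ᵀ = R * J.H * Rᵀ
    rw [conj_transpose, hJ.symH]
  · show (R * _ * Rᵀ).trace = (R *ᵥ J.t) k
    rw [trace_conj hR, Matrix.trace_sum]
    simp only [Matrix.trace_smul, hJ.trT, smul_eq_mul, Matrix.mulVec, dotProduct]
  · show (R * J.H * Rᵀ).trace = _ * ((R *ᵥ J.t) ⬝ᵥ (R *ᵥ J.t))
    rw [trace_conj hR, dot_rot hR, hJ.trH]

end Jet

/-- An orthogonal matrix putting `z` on the first axis and `w` in the plane of the first two, both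
on the nonnegative sides. -/
lemma exists_orthogonal_frame (hn : 2 ≤ n) (z w : Fin n → ℝ) :
    ∃ R : Matrix (Fin n) (Fin n) ℝ, Rᵀ * R = 1 ∧ R * Rᵀ = 1 ∧
      (∀ i : Fin n, 1 ≤ i.val → (R *ᵥ z) i = 0) ∧ 0 ≤ (R *ᵥ z) ⟨0, by omega⟩ ∧
      (∀ i : Fin n, 2 ≤ i.val → (R *ᵥ w) i = 0) ∧ 0 ≤ (R *ᵥ w) ⟨1, by omega⟩ := by
  let i0 : Fin n := ⟨0, by omega⟩
  let i1 : Fin n := ⟨1, by omega⟩
  let f : Fin n → EuclideanSpace ℝ (Fin n) := fun i =>
    if i = i0 then WithLp.toLp 2 z else WithLp.toLp 2 w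
  let b := gramSchmidtOrthonormalBasis
    (show Module.finrank ℝ (EuclideanSpace ℝ (Fin n)) = Fintype.card (Fin n) by simp) f
  let R₀ : Matrix (Fin n) (Fin n) ℝ := Matrix.of fun i a => b i a
  have hmul : ∀ (i : Fin n) (x : Fin n → ℝ), (R₀ *ᵥ x) i = ⟪b i, WithLp.toLp 2 x⟫ := by
    intro i x
    simp only [R₀, Matrix.mulVec, dotProduct, PiLp.inner_apply, RCLike.inner_apply, conj_trivial,
      Matrix.of_apply]
    exact Finset.sum_congr rfl fun a _ => mul_comm _ _
  have hz : ∀ i : Fin n, 1 ≤ i.val → (R₀ *ᵥ z) i = 0 := by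
    intro i hi
    rw [hmul]
    have h := gramSchmidtOrthonormalBasis_inv_triangular
      (show Module.finrank ℝ (EuclideanSpace ℝ (Fin n)) = Fintype.card (Fin n) by simp)
      f (i := i0) (j := i) (show i0.val < i.val from hi)
    simpa [f] using h
  have hw : ∀ i : Fin n, 2 ≤ i.val → (R₀ *ᵥ w) i = 0 := by
    intro i hi
    rw [hmul]
    have h := gramSchmidtOrthonormalBasis_inv_triangular
      (show Module.finrank ℝ (EuclideanSpace ℝ (Fin n)) = Fintype.card (Fin n) by simp)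
      f (i := i1) (j := i) (show i1.val < i.val from hi)
    have hne : i1 ≠ i0 := Fin.ne_of_val_ne Nat.one_ne_zero
    simpa [f, hne] using h
  let s : Fin n → ℝ := fun i =>
    if (if i = i0 then (R₀ *ᵥ z) i else (R₀ *ᵥ w) i) < 0 then -1 else 1
  have hs : ∀ i, s i * s i = 1 := fun i => by simp only [s]; split_ifs <;> norm_num
  let R : Matrix (Fin n) (Fin n) ℝ := Matrix.of fun i a => s i * R₀ i a
  have hRmul : ∀ (i : Fin n) (x : Fin n → ℝ), (R *ᵥ x) i = s i * (R₀ *ᵥ x) i := by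
    intro i x
    simp only [R, Matrix.mulVec, dotProduct, Matrix.of_apply, Finset.mul_sum, mul_assoc]
  have hRR : R * Rᵀ = 1 := by
    ext i j
    have hb := orthonormal_iff_ite.1 b.orthonormal i j
    rw [PiLp.inner_apply] at hb
    simp only [RCLike.inner_apply, conj_trivial] at hb
    rw [Matrix.mul_apply, Matrix.one_apply]
    simp only [R, R₀, Matrix.transpose_apply, Matrix.of_apply]
    calc ∑ a, s i * b i a * (s j * b j a) = s i * s j * ∑ a, b j a * b i a := by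
          rw [Finset.mul_sum]
          exact Finset.sum_congr rfl fun a _ => by ring
      _ = if i = j then 1 else 0 := by
          rw [hb]
          split_ifs with h
          · rw [h, hs]; ring
          · ring
  refine ⟨R, mul_eq_one_comm.1 hRR, hRR, fun i hi => by rw [hRmul, hz i hi, mul_zero], ?_,
    fun i hi => by rw [hRmul, hw i hi, mul_zero], ?_⟩
  · rw [hRmul]
    show 0 ≤ s i0 * (R₀ *ᵥ z) i0
    simp only [s, if_pos]
    split_ifs with h <;> linarith
  · rw [hRmul]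
    show 0 ≤ s i1 * (R₀ *ᵥ w) i1
    have hne : i1 ≠ i0 := Fin.ne_of_val_ne Nat.one_ne_zero
    simp only [s, if_neg hne]
    split_ifs with h <;> linarith

/-- The normal frame: `Z z` on the first axis, the other covector in the plane of the first two. -/
theorem Jet.exists_frame (hn : 2 ≤ n) (z : Fin 2) (J : Jet n) (hJ : J.Valid) :
    ∃ J' : Jet n, J'.Valid ∧ (∀ P, J'.flux P = J.flux P) ∧ J'.e = J.e ∧
      (∀ a b, J'.d a b = J.d a b) ∧
      (∀ i : Fin n, 1 ≤ i.val → J'.Z z i = 0) ∧ 0 ≤ J'.Z z ⟨0, by omega⟩ ∧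
      (∀ i : Fin n, 2 ≤ i.val → J'.Z (1 - z) i = 0) ∧ 0 ≤ J'.Z (1 - z) ⟨1, by omega⟩ := by
  obtain ⟨R, h1, h2, ha, hb, hc, hd⟩ := exists_orthogonal_frame hn (J.Z z) (J.Z (1 - z))
  refine ⟨J.rot R, Jet.rot_valid h1 h2 hJ, Jet.rot_flux h1 h2, rfl, Jet.rot_d h1 h2, ?_, ?_, ?_, ?_⟩
  · intro i hi; rw [Jet.rot_Z]; exact ha i hi
  · rw [Jet.rot_Z]; exact hb
  · intro i hi; rw [Jet.rot_Z]; exact hc i hi
  · rw [Jet.rot_Z]; exact hd

end

end Vale.Agent.P252.General
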