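import Vale.Agent.P252.Rigidity.General.Mass.Form

/-!
# The mass of balanced caps for particular exponents

`∫ η^m (det D²u)^q ≤ C h^(nq) |cap|^(1-2q)`.  For `q = 1/2` this is `C h^(n/2)`.
-/

namespace Vale.Agent.P252.General

open Mass

noncomputable section

variable {β : ℝ} {m : ℕ}

theorem massBound_half_four (hβ : 0 < β) (hm : 3 ≤ m) : MassBound 4 β m (1 / 2) :=
  massBound_of_detFormPos hm (by norm_num) (by norm_num)
    (DetFormPos.mono (A := 39 / 50) (B := 23 / 5) (by norm_num) (by norm_num) hm
      (by apply detFormPos_of_minors rfl rfl rfl rfl rfl rfl <;> norm_num)) hβ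

theorem massBound_half_five (hβ : 0 < β) (hm : 3 ≤ m) : MassBound 5 β m (1 / 2) :=
  massBound_of_detFormPos hm (by norm_num) (by norm_num)
    (DetFormPos.mono (A := 59 / 100) (B := 11 / 2) (by norm_num) (by norm_num) hm
      (by apply detFormPos_of_minors rfl rfl rfl rfl rfl rfl <;> norm_num)) hβ

theorem massBound_half_six (hβ : 0 < β) (hm : 6 ≤ m) : MassBound 6 β m (1 / 2) :=
  massBound_of_detFormPos (by omega) (by norm_num) (by norm_num)
    (DetFormPos.mono (A := 51 / 100) (B := 57 / 10) (by norm_num) (by norm_num) hm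
      (by apply detFormPos_of_minors rfl rfl rfl rfl rfl rfl <;> norm_num)) hβ

theorem massBound_half_seven (hβ : 0 < β) (hm : 12 ≤ m) : MassBound 7 β m (1 / 2) :=
  massBound_of_detFormPos (by omega) (by norm_num) (by norm_num)
    (DetFormPos.mono (A := 9 / 20) (B := 61 / 10) (by norm_num) (by norm_num) hm
      (by apply detFormPos_of_minors rfl rfl rfl rfl rfl rfl <;> norm_num)) hβ

theorem massBound_two_fifths_eight (hβ : 0 < β) (hm : 8 ≤ m) : MassBound 8 β m (2 / 5) :=
  massBound_of_detFormPos (by omega) (by norm_num) (by norm_num)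
    (DetFormPos.mono (A := 1 / 2) (B := 73 / 10) (by norm_num) (by norm_num) hm
      (by apply detFormPos_of_minors rfl rfl rfl rfl rfl rfl <;> norm_num)) hβ

theorem massBound_two_fifths_nine (hβ : 0 < β) (hm : 40 ≤ m) : MassBound 9 β m (2 / 5) :=
  massBound_of_detFormPos (by omega) (by norm_num) (by norm_num)
    (DetFormPos.mono (A := 9 / 20) (B := 38 / 5) (by norm_num) (by norm_num) hm
      (by apply detFormPos_of_minors rfl rfl rfl rfl rfl rfl <;> norm_num)) hβ

theorem massBound_three_tenths_eight (hβ : 0 < β) (hm : 3 ≤ m) : MassBound 8 β m (3 / 10) :=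
  massBound_of_detFormPos hm (by norm_num) (by norm_num)
    (DetFormPos.mono (A := 7 / 10) (B := 42 / 5) (by norm_num) (by norm_num) hm
      (by apply detFormPos_of_minors rfl rfl rfl rfl rfl rfl <;> norm_num)) hβ

theorem massBound_three_tenths_nine (hβ : 0 < β) (hm : 4 ≤ m) : MassBound 9 β m (3 / 10) :=
  massBound_of_detFormPos (by omega) (by norm_num) (by norm_num)
    (DetFormPos.mono (A := 31 / 50) (B := 179 / 20) (by norm_num) (by norm_num) hm
      (by apply detFormPos_of_minors rfl rfl rfl rfl rfl rfl <;> norm_num)) hβ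

end

end Vale.Agent.P252.General
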