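import Vale.Agent.P252.Rigidity.General.PointwiseJet

/-!
# Affine maximal functions of `n` variables: from the certificate to the flux bound

The flux in scaled covectors is `C¹` on the whole domain: at a common zero of `η τ` and `η v`
each term vanishes to an order above one, as the degree exceeds four.
-/

namespace Vale.Agent.P252.General

open scoped ContDiff Topology Matrix
open Finset Filter

noncomputable section

variable {n : ℕ} {W : Set (Fin n → ℝ)} {u : (Fin n → ℝ) → ℝ} {x₀ p : Fin n → ℝ} {h : ℝ}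
  {ρ : (Fin n → ℝ) → ℝ} {s t : ℝ}

/-- Real powers of the positive part from exponent two on. -/
lemma contDiff_maxPow {r : ℝ} (hr : 2 ≤ r) : ContDiff ℝ 1 fun x : ℝ => max x 0 ^ r := by
  have e : (fun x : ℝ => max x 0 ^ r) = (fun x : ℝ => x ^ (r / 2)) ∘ fun x => max x 0 ^ 2 := by
    funext x
    rw [Function.comp_apply, ← Real.rpow_natCast, ← Real.rpow_mul (le_max_right _ _)]
    congr 1
    push_cast
    ring
  rw [e]
  exact (Real.contDiff_rpow_const_of_le (n := 1) (by push_cast; linarith)).comp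
    (Rigidity.contDiff_posPart_pow 0)

/-- `z_i² ≤ A_ii ⟨z, A⁻¹ z⟩`. -/
lemma sq_le_quad {A : Matrix (Fin n) (Fin n) ℝ} (hA : A.PosDef) (z : Fin n → ℝ) (i : Fin n) :
    z i ^ 2 ≤ A i i * (z ⬝ᵥ (A⁻¹ *ᵥ z)) := by
  set w := A⁻¹ *ᵥ z with hw
  have hz : A *ᵥ w = z := by
    rw [hw, Matrix.mulVec_mulVec, Matrix.mul_nonsing_inv _ hA.det_pos.ne'.isUnit,
      Matrix.one_mulVec]
  have hpos : 0 < A i i := hA.diag_pos
  have hsym : Aᵀ = A := by simpa [Matrix.conjTranspose_eq_transpose_of_trivial] using hA.1.eq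
  have key := hA.posSemidef.dotProduct_mulVec_nonneg (w + Pi.single i (-(z i / A i i)))
  have e1 : w ⬝ᵥ (A *ᵥ Pi.single i (1 : ℝ)) = z i := by
    rw [Matrix.dotProduct_mulVec, ← Matrix.mulVec_transpose, hsym, hz, dotProduct_single, mul_one]
  have e2 : Pi.single i (-(z i / A i i)) = (-(z i / A i i)) • Pi.single i (1 : ℝ) := by
    rw [← Pi.single_smul, smul_eq_mul, mul_one]
  simp only [star_trivial, e2, Matrix.mulVec_add, Matrix.mulVec_smul, add_dotProduct,
    dotProduct_add, smul_dotProduct, dotProduct_smul, e1, hz, smul_eq_mul] at key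
  rw [show Pi.single i (1 : ℝ) ⬝ᵥ z = z i by simp,
    show Pi.single i (1 : ℝ) ⬝ᵥ (A *ᵥ Pi.single i (1 : ℝ)) = A i i by simp,
    dotProduct_comm w z] at key
  have := mul_nonneg hpos.le key
  field_simp at this
  nlinarith

/-! ### Flat vectors and matrices -/

/-- A vector field flat in every component. -/
def VFlat (W : Set (Fin n → ℝ)) (ρ : (Fin n → ℝ) → ℝ) (s : ℝ)
    (F : (Fin n → ℝ) → Fin n → ℝ) : Prop :=
  ∀ i, Flat W ρ s fun z => F z i

/-- A matrix field flat in every entry. -/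
def MFlat (W : Set (Fin n → ℝ)) (ρ : (Fin n → ℝ) → ℝ) (s : ℝ)
    (M : (Fin n → ℝ) → Matrix (Fin n) (Fin n) ℝ) : Prop :=
  ∀ i j, Flat W ρ s fun z => M z i j

section Flat

variable (hW : IsOpen W) (hρ : ContDiffOn ℝ 2 ρ W) (h0 : ∀ y ∈ W, 0 ≤ ρ y)
include hW

lemma Flat.of_sm {f : (Fin n → ℝ) → ℝ} (hf : Sm W f) : Flat W ρ 0 f :=
  Flat.of_contDiffOn hW (hf.of_le (by simp))

lemma MFlat.of_msm {M : (Fin n → ℝ) → Matrix (Fin n) (Fin n) ℝ} (hM : MSm W M) :
    MFlat W ρ 0 M := fun i j => Flat.of_sm hW (hM i j)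

include hρ h0

lemma vflat_mulVec {M : (Fin n → ℝ) → Matrix (Fin n) (Fin n) ℝ}
    {F : (Fin n → ℝ) → Fin n → ℝ} (hM : MFlat W ρ s M) (hF : VFlat W ρ t F) (hs : 0 ≤ s)
    (ht : 0 ≤ t) : VFlat W ρ (s + t) fun z => M z *ᵥ F z := fun i => by
  show Flat W ρ (s + t) fun z => ∑ j, M z i j * F z j
  exact flat_sum hW _ fun j _ => Flat.mul hW hρ h0 (hM i j) (hF j) hs ht

lemma flat_dot {F K : (Fin n → ℝ) → Fin n → ℝ} (hF : VFlat W ρ s F) (hK : VFlat W ρ t K)
    (hs : 0 ≤ s) (ht : 0 ≤ t) : Flat W ρ (s + t) fun z => F z ⬝ᵥ K z := by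
  show Flat W ρ (s + t) fun z => ∑ j, F z j * K z j
  exact flat_sum hW _ fun j _ => Flat.mul hW hρ h0 (hF j) (hK j) hs ht

variable (hu : Three.AM W u)
include hu

lemma mflat_Cm {F : (Fin n → ℝ) → Fin n → ℝ} (hF : VFlat W ρ s F) (hs : 0 ≤ s) :
    MFlat W ρ s fun z => Cm u z (F z) := fun i j => by
  simp only [Cm, Matrix.sum_apply, Matrix.smul_apply, smul_eq_mul]
  refine flat_sum hW _ fun k _ => ?_
  simpa using Flat.mul hW hρ h0 (hF k) (Flat.of_sm hW (msm_mh' hu k i j)) hs le_rfl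

variable {Z : (Fin n → ℝ) → Fin 2 → Fin n → ℝ} (hZ : ∀ a, VFlat W ρ (1 / 2) fun z => Z z a)
include hZ

lemma vflat_ginv (a : Fin 2) : VFlat W ρ (1 / 2) fun z => hinv u z *ᵥ Z z a := by
  simpa using vflat_mulVec hW hρ h0 (MFlat.of_msm hW hu.msm_hinv) (hZ a) le_rfl (by norm_num)

lemma flat_dZ (a b : Fin 2) : Flat W ρ 1 fun z => dZ u z (Z z) a b := by
  have := flat_dot hW hρ h0 (hZ a) (vflat_ginv hW hρ h0 hu hZ b) (by norm_num) (by norm_num)
  norm_num at this
  exact this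

lemma flat_monoZ (T : Term) :
    Flat W ρ ((T.i + T.j + T.k : ℕ) : ℝ) fun z => monoZ u z (Z z) T := by
  have e : ∀ a b (k : ℕ), Flat W ρ (k : ℝ) fun z => dZ u z (Z z) a b ^ k := fun a b k => by
    simpa using Flat.pow hW hρ h0 (flat_dZ hW hρ h0 hu hZ a b) zero_le_one k
  push_cast
  exact Flat.mul hW hρ h0 (Flat.mul hW hρ h0 (e 0 0 T.i) (e 0 1 T.j) (by positivity)
    (by positivity)) (e 1 1 T.k) (by positivity) (by positivity)

lemma vflat_fldB (b : Base) :
    VFlat W ρ ((b.nz : ℝ) / 2) fun z => fldB u z (Z z) b := by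
  have hH : MFlat W ρ 0 (hess (Three.logDet u)) :=
    MFlat.of_msm hW (msm_hess hu.isOpen hu.sm_logDet)
  have hU := vflat_ginv hW hρ h0 hu hZ
  have hh : (0 : ℝ) ≤ 1 / 2 := by norm_num
  have hC := fun a => mflat_Cm hW hρ h0 hu (hU a) hh
  have hHU : ∀ a, VFlat W ρ (1 / 2) fun z => hess (Three.logDet u) z *ᵥ (hinv u z *ᵥ Z z a) :=
    fun a => by simpa using vflat_mulVec hW hρ h0 hH (hU a) le_rfl hh
  have hTU : ∀ a c, VFlat W ρ 1 fun z =>
      Cm u z (hinv u z *ᵥ Z z a) *ᵥ (hinv u z *ᵥ Z z c) := fun a c => by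
    have := vflat_mulVec hW hρ h0 (hC a) (hU c) hh hh
    rwa [show (1 / 2 : ℝ) + 1 / 2 = 1 by norm_num] at this
  cases b with
  | k z => simpa [Base.nz, fldB] using hZ z
  | h z => simpa [Base.nz, fldB] using hHU z
  | t a c => simpa [Base.nz, fldB] using hTU a c
  | ah c =>
    have e : ∀ a a', VFlat W ρ (3 / 2) fun z => ((hinv u z *ᵥ Z z a) ⬝ᵥ
        (hess (Three.logDet u) z *ᵥ (hinv u z *ᵥ Z z c))) • Z z a' := fun a a' i => by
      have := Flat.mul hW hρ h0 (flat_dot hW hρ h0 (hU a) (hHU c) hh hh) (hZ a' i)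
        (by norm_num) hh
      rwa [show (1 / 2 : ℝ) + 1 / 2 + 1 / 2 = 3 / 2 by norm_num] at this
    intro i
    simpa [Base.nz, fldB] using Flat.sub hW (e 0 1 i) (e 1 0 i)
  | atb b c =>
    have e : ∀ a a', VFlat W ρ 2 fun z => ((hinv u z *ᵥ Z z b) ⬝ᵥ
        (Cm u z (hinv u z *ᵥ Z z a) *ᵥ (hinv u z *ᵥ Z z c))) • Z z a' := fun a a' i => by
      have := Flat.mul hW hρ h0 (flat_dot hW hρ h0 (hU b) (hTU a c) hh zero_le_one) (hZ a' i)
        (by norm_num) hh
      rwa [show (1 / 2 : ℝ) + 1 + 1 / 2 = 2 by norm_num] at this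
    intro i
    have := Flat.sub hW (e 0 1 i) (e 1 0 i)
    norm_num [Base.nz]
    simpa [fldB] using this

end Flat

/-! ### Scaling -/

lemma Cm_smul (c : ℝ) (y A : Fin n → ℝ) : Cm u y (c • A) = c • Cm u y A := by
  simp [Cm, smul_sum, smul_smul]

lemma fldB_smul (c : ℝ) (y : Fin n → ℝ) (Z : Fin 2 → Fin n → ℝ) (b : Base) :
    fldB u y (c • Z) b = c ^ b.nz • fldB u y Z b := by
  cases b <;>
    simp only [fldB, Base.nz, Pi.smul_apply, Matrix.mulVec_smul, Matrix.smul_mulVec, Cm_smul,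
      smul_dotProduct, dotProduct_smul, smul_eq_mul, smul_sub, smul_smul] <;>
    ring_nf

lemma dZ_smul (c : ℝ) (y : Fin n → ℝ) (Z : Fin 2 → Fin n → ℝ) (a b : Fin 2) :
    dZ u y (c • Z) a b = c ^ 2 * dZ u y Z a b := by
  simp only [dZ, Pi.smul_apply, Matrix.mulVec_smul, smul_dotProduct, dotProduct_smul, smul_eq_mul]
  ring

lemma monoZ_smul (c : ℝ) (y : Fin n → ℝ) (Z : Fin 2 → Fin n → ℝ) (T : Term) :
    monoZ u y (c • Z) T = c ^ (2 * (T.i + T.j + T.k)) * monoZ u y Z T := by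
  simp only [monoZ, dZ_smul, mul_pow, ← pow_mul]
  ring

lemma bigZ_smul (c : ℝ) (y : Fin n → ℝ) (Z : Fin 2 → Fin n → ℝ) (P : Params) :
    bigZ u y (c • Z) P = c ^ 2 * bigZ u y Z P := by
  simp only [bigZ, dZ_smul]
  ring

lemma scaZ_eq {y : Fin n → ℝ} (hh : h ≠ 0) (hη : etaF u x₀ p h y ≠ 0) :
    scaZ u y x₀ p h = etaF u x₀ p h y • covZ u y x₀ p h := by
  funext a
  fin_cases a
  · rfl
  · show (-h⁻¹) • capGrad u x₀ p y =
      etaF u x₀ p h y • ((-(h * etaF u x₀ p h y)⁻¹) • capGrad u x₀ p y)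
    rw [smul_smul]
    congr 1
    field_simp

lemma polyF_apply (l : List Term) (y : Fin n → ℝ) (j : Fin n) :
    polyF u x₀ p h l y j = (l.map fun T => T.c * monoZ u y (covZ u y x₀ p h) T *
      fldB u y (covZ u y x₀ p h) T.base j).sum := by
  unfold polyF
  induction l with
  | nil => simp
  | cons T l ih => simp [ih]

/-- Where `η > 0` the flux is `η^a (det D²u)^γ det D²u · G (F^e₀ polyY)`. -/
lemma fluxPhi_eq (P : Params) (hP : P.Homog) {y : Fin n → ℝ} (hh : h ≠ 0)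
    (hη : 0 < etaF u x₀ p h y) (hF : 0 ≤ bigZ u y (covZ u y x₀ p h) P) (i : Fin n) :
    fluxPhi u y x₀ p h P i = ∑ j, cofH u y i j * (weightA u x₀ p h P y *
      (bigZ u y (covZ u y x₀ p h) P ^ P.e0 * polyF u x₀ p h P.terms y j)) := by
  set η := etaF u x₀ p h y with hηd
  have hterm : ∀ j, ∀ T ∈ P.terms,
      η ^ ((P.a : ℝ) - P.deg + 1) * η ^ (2 * P.e0) * scaTerm u y x₀ p h T j =
      η ^ P.a * (T.c * monoZ u y (covZ u y x₀ p h) T * fldB u y (covZ u y x₀ p h) T.base j) := by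
    intro j T hT
    have e : η ^ ((P.a : ℝ) - P.deg + 1) * η ^ (2 * P.e0) *
        η ^ (2 * (T.i + T.j + T.k) + T.base.wt) = η ^ P.a := by
      rw [← Real.rpow_natCast η (2 * _ + _), ← Real.rpow_natCast η P.a, ← Real.rpow_add hη,
        ← Real.rpow_add hη]
      congr 1
      have := hP T hT
      push_cast at this ⊢
      linarith
    rw [← e, ← T.base.nz_add_cw, scaTerm, scaZ_eq hh hη.ne', monoZ_smul, fldB_smul, ← hηd]
    simp only [Pi.smul_apply, smul_eq_mul, pow_add]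
    ring
  have hsum : ∀ j, ∀ l : List Term, (∀ T ∈ l, T ∈ P.terms) →
      η ^ ((P.a : ℝ) - P.deg + 1) * η ^ (2 * P.e0) *
        (l.map fun T => scaTerm u y x₀ p h T j).sum =
      η ^ P.a * (l.map fun T => T.c * monoZ u y (covZ u y x₀ p h) T *
        fldB u y (covZ u y x₀ p h) T.base j).sum := by
    intro j l
    induction l with
    | nil => simp
    | cons T l ih =>
      intro hl
      simp only [List.map_cons, List.sum_cons, mul_add]
      rw [hterm j T (hl T (List.mem_cons_self ..)),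
        ih fun S hS => hl S (List.mem_cons_of_mem _ hS)]
  refine sum_congr rfl fun j _ => ?_
  rw [max_eq_left hη.le, scaZ_eq hh hη.ne', bigZ_smul, Real.mul_rpow (by positivity) hF,
    polyF_apply, weightA, ← hηd]
  have e2 : (η ^ 2) ^ P.e0 = η ^ (2 * P.e0) := by
    rw [← Real.rpow_natCast, ← Real.rpow_mul hη.le]
    norm_num
  rw [e2]
  linear_combination (hess u y).det ^ P.gam * cofH u y i j *
    bigZ u y (covZ u y x₀ p h) P ^ P.e0 * hsum j P.terms fun T hT => hT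

section Global

variable (hu : Three.AM W u)
include hu

lemma dZ_self_nonneg {y : Fin n → ℝ} (hy : y ∈ W) (Z : Fin 2 → Fin n → ℝ) (a : Fin 2) :
    0 ≤ dZ u y Z a a := by
  simpa [dZ, hinv] using (hu.pos y hy).inv.posSemidef.dotProduct_mulVec_nonneg (Z a)

lemma bigZ_nonneg {P : Params} (hk : 0 < P.kap) {y : Fin n → ℝ} (hy : y ∈ W)
    (Z : Fin 2 → Fin n → ℝ) : 0 ≤ bigZ u y Z P :=
  add_nonneg (dZ_self_nonneg hu hy Z 0) (mul_nonneg hk.le (dZ_self_nonneg hu hy Z 1))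

/-- The scaled covectors are flat of order one half. -/
lemma vflat_scaZ {P : Params} (hk : 0 < P.kap) (a : Fin 2) :
    VFlat W (fun z => bigZ u z (scaZ u z x₀ p h) P) (1 / 2) fun z => scaZ u z x₀ p h a := by
  intro i
  refine Flat.of_sq_le hu.isOpen (fun y hy => bigZ_nonneg hu hk hy _)
    ((vsm_scaZ hu a i).of_le (by simp)) fun x hx _ => ?_
  have hc : ContinuousAt (fun z => hess u z i i) x :=
    (hu.sm.hess hu.isOpen i i).continuousOn.continuousAt (hu.isOpen.mem_nhds hx)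
  set L := hess u x i i + 1 with hL
  have hL0 : 0 < L := by linarith [(hu.pos x hx).diag_pos (i := i)]
  refine ⟨L * (1 + P.kap⁻¹), ?_⟩
  filter_upwards [hc.eventually (eventually_le_nhds (lt_add_one (hess u x i i))),
    hu.isOpen.mem_nhds hx] with y hyL hy
  have h1 := sq_le_quad (hu.pos y hy) (scaZ u y x₀ p h a) i
  have n0 := dZ_self_nonneg hu hy (scaZ u y x₀ p h) 0
  have n1 := dZ_self_nonneg hu hy (scaZ u y x₀ p h) 1
  have h2 : dZ u y (scaZ u y x₀ p h) a a ≤
      (1 + P.kap⁻¹) * bigZ u y (scaZ u y x₀ p h) P := by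
    have hk1 : P.kap⁻¹ * P.kap = 1 := inv_mul_cancel₀ hk.ne'
    have hki : 0 ≤ P.kap⁻¹ := inv_nonneg.2 hk.le
    fin_cases a <;> simp only [bigZ, Fin.zero_eta, Fin.mk_one] <;>
      nlinarith [mul_nonneg hki n0, mul_nonneg hk.le n1]
  calc scaZ u y x₀ p h a i ^ 2 ≤ hess u y i i * dZ u y (scaZ u y x₀ p h) a a := h1
    _ ≤ L * dZ u y (scaZ u y x₀ p h) a a :=
        mul_le_mul_of_nonneg_right hyL (dZ_self_nonneg hu hy _ a)
    _ ≤ L * ((1 + P.kap⁻¹) * bigZ u y (scaZ u y x₀ p h) P) :=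
        mul_le_mul_of_nonneg_left h2 hL0.le
    _ = L * (1 + P.kap⁻¹) * bigZ u y (scaZ u y x₀ p h) P := by ring

/-- The scaled field is `C¹` and vanishes with its derivative at its common zeros. -/
lemma scaled_field {P : Params} (hk : 0 < P.kap) (hd : 4 < P.deg) (hP : P.Homog) (j : Fin n) :
    ∀ l : List Term, (∀ T ∈ l, T ∈ P.terms) →
      ContDiffOn ℝ 1 (fun z => bigZ u z (scaZ u z x₀ p h) P ^ P.e0 *
        (l.map fun T => scaTerm u z x₀ p h T j).sum) W ∧
      ∀ x ∈ W, bigZ u x (scaZ u x x₀ p h) P = 0 →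
        bigZ u x (scaZ u x x₀ p h) P ^ P.e0 * (l.map fun T => scaTerm u x x₀ p h T j).sum = 0 ∧
        HasFDerivAt (fun z => bigZ u z (scaZ u z x₀ p h) P ^ P.e0 *
          (l.map fun T => scaTerm u z x₀ p h T j).sum) (0 : (Fin n → ℝ) →L[ℝ] ℝ) x := by
  have hW := hu.isOpen
  have hρ : ContDiffOn ℝ 2 (fun z => bigZ u z (scaZ u z x₀ p h) P) W :=
    (sm_bigZ hu (vsm_scaZ hu) P).of_le (WithTop.coe_le_coe.2 le_top)
  have h0 : ∀ y ∈ W, 0 ≤ bigZ u y (scaZ u y x₀ p h) P := fun y hy => bigZ_nonneg hu hk hy _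
  intro l
  induction l with
  | nil =>
    intro _
    simp only [List.map_nil, List.sum_nil, mul_zero]
    exact ⟨contDiffOn_const, fun x _ _ => ⟨trivial, hasFDerivAt_const 0 x⟩⟩
  | cons T l ih =>
    intro hl
    obtain ⟨ih1, ih2⟩ := ih fun S hS => hl S (List.mem_cons_of_mem _ hS)
    have hf : Flat W (fun z => bigZ u z (scaZ u z x₀ p h) P)
        (((T.i + T.j + T.k : ℕ) : ℝ) + (0 + (T.base.nz : ℝ) / 2))
        fun z => scaTerm u z x₀ p h T j :=
      Flat.mul hW hρ h0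
        (Flat.const_mul hW (flat_monoZ hW hρ h0 hu (vflat_scaZ hu hk) T) T.c)
        (Flat.mul hW hρ h0 (Flat.of_sm hW ((sm_etaF hu).pow _))
          (vflat_fldB hW hρ h0 hu (vflat_scaZ hu hk) T.base j) le_rfl (by positivity))
        (by positivity) (by positivity)
    have hes : 1 / 2 < P.e0 + (((T.i + T.j + T.k : ℕ) : ℝ) + (0 + (T.base.nz : ℝ) / 2)) := by
      have := hP T (hl T (List.mem_cons_self ..))
      have h2 : (T.base.wt : ℝ) ≤ T.base.nz + 2 := by
        rw [← T.base.nz_add_cw]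
        have : (T.base.cw : ℝ) ≤ 2 := by exact_mod_cast T.base.cw_le
        push_cast
        linarith
      push_cast at this ⊢
      linarith
    simp only [List.map_cons, List.sum_cons, mul_add]
    refine ⟨(Flat.rpow_mul hW hρ h0 hf hes).add ih1, fun x hx hx0 => ⟨?_, ?_⟩⟩
    · rw [Flat.rpow_mul_eq_zero hf hes hx hx0, (ih2 x hx hx0).1, add_zero]
    · simpa using (Flat.hasFDerivAt_rpow_mul_zero hW hρ h0 hf hes hx hx0).fun_add (ih2 x hx hx0).2

lemma contDiffOn_coeff (P : Params) (hd : P.deg + 1 < (P.a : ℝ)) (i j : Fin n) :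
    ContDiffOn ℝ 1 (fun z => max (etaF u x₀ p h z) 0 ^ ((P.a : ℝ) - P.deg + 1) *
      ((hess u z).det ^ P.gam * cofH u z i j)) W :=
  (((contDiff_maxPow (by linarith)).comp_contDiffOn ((sm_etaF hu).of_le (by simp)))).mul
    ((((sm_det (msm_hess hu.isOpen hu.sm)).rpow_const_of_ne fun z hz => (hu.det_pos hz).ne').mul
      (msm_cofH hu.isOpen hu.sm (det_ne_zero hu) i j)).of_le (by simp))

end Global

/-- The pointwise module: a certificate gives the flux bound. -/
theorem pointwiseGoal (n : ℕ) : PointwiseGoal n := by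
  rintro P ⟨hk, hdeg, he0, hda, hP, ε, C, hε, hC, hJ⟩
  refine ⟨ε, C, hε, hC, ?_⟩
  intro W u hu x₀ p h hh
  have hW := hu.isOpen
  have hcl : ∀ i, ContDiffOn ℝ 1 (fun z => fluxPhi u z x₀ p h P i) W := fun i => by
    unfold fluxPhi
    exact ContDiffOn.sum fun j _ =>
      (contDiffOn_coeff hu P hda i j).mul (scaled_field hu hk hdeg hP j P.terms fun T hT => hT).1
  refine ⟨fun i z => fluxPhi u z x₀ p h P i, hcl, fun i y hy hη => ?_, fun y hy hη => ?_⟩
  · unfold fluxPhi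
    refine sum_eq_zero fun j _ => ?_
    rw [max_eq_right hη, Real.zero_rpow (by linarith : (0 : ℝ) < (P.a : ℝ) - P.deg + 1).ne',
      zero_mul, zero_mul]
  have hd := hu.det_pos hy
  have hsca := scaZ_eq (u := u) (x₀ := x₀) (p := p) hh.ne' hη.ne'
  set W1 : Set (Fin n → ℝ) := W ∩ etaF u x₀ p h ⁻¹' Set.Ioi 0 with hW1
  have h1 : IsOpen W1 := (sm_etaF hu).continuousOn.isOpen_inter_preimage hW isOpen_Ioi
  have D1 : Dom W1 u x₀ p h :=
    { am := ⟨h1, hu.sm.mono Set.inter_subset_left, fun z hz => hu.pos z hz.1,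
        fun z hz => hu.eq z hz.1⟩
      hpos := hh
      eta := fun z hz => hz.2 }
  obtain ⟨B, hB⟩ := exists_factor (A := hinv u y) (hu.pos y hy).inv
  have hd00 := jet_d00 (x₀ := x₀) (p := p) (h := h) hB
  rcases (bigZ_nonneg hu hk hy (covZ u y x₀ p h)).eq_or_lt with hF | hF
  · -- a common zero of `τ` and `v`
    have hs0 : bigZ u y (scaZ u y x₀ p h) P = 0 := by rw [hsca, bigZ_smul, ← hF, mul_zero]
    have hq : Three.qQ u y = 0 := by
      rw [← hd00, jet_d hB]
      unfold bigZ at hF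
      nlinarith [dZ_self_nonneg hu hy (covZ u y x₀ p h) 0,
        mul_nonneg hk.le (dZ_self_nonneg hu hy (covZ u y x₀ p h) 1)]
    have hpd : ∀ i, pd i (fun z => fluxPhi u z x₀ p h P i) y = 0 := fun i => by
      have hg := fun j => ((contDiffOn_coeff (x₀ := x₀) (p := p) (h := h) hu P hda i j
        ).differentiableOn one_ne_zero y hy).differentiableAt (hW.mem_nhds hy)
      have hX := fun j => (scaled_field (x₀ := x₀) (p := p) (h := h) hu hk hdeg hP j P.terms
        fun T hT => hT).2 y hy hs0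
      unfold fluxPhi
      rw [pd_sum fun j _ => (hg j).fun_mul (hX j).2.differentiableAt]
      refine sum_eq_zero fun j _ => ?_
      rw [pd_mul (hg j) (hX j).2.differentiableAt, (hX j).1, pd, pd, (hX j).2.fderiv]
      simp
    rw [hq, Real.zero_rpow (by linarith : (0 : ℝ) < P.deg / 2).ne', mul_zero, zero_sub,
      sum_congr rfl fun i _ => hpd i, sum_const_zero]
    refine mul_nonpos_of_nonneg_of_nonpos (by positivity) (neg_nonpos.2 ?_)
    exact mul_nonneg hC (Real.rpow_nonneg (inv_nonneg.2 (mul_pos hh hη).le) _)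
  · set W2 : Set (Fin n → ℝ) :=
      W1 ∩ (fun z => bigZ u z (covZ u z x₀ p h) P) ⁻¹' Set.Ioi 0 with hW2
    have h2 : IsOpen W2 :=
      (sm_bigZ D1.am (vsm_covZ D1) P).continuousOn.isOpen_inter_preimage h1 isOpen_Ioi
    have D2 : Dom W2 u x₀ p h :=
      { am := ⟨h2, D1.am.sm.mono Set.inter_subset_left, fun z hz => D1.am.pos z hz.1,
          fun z hz => D1.am.eq z hz.1⟩
        hpos := hh
        eta := fun z hz => D1.eta z hz.1 }
    have hy2 : y ∈ W2 := ⟨⟨hy, hη⟩, hF⟩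
    have hpd : ∀ i, pd i (fun z => fluxPhi u z x₀ p h P i) y =
        pd i (fun z => ∑ j, cofH u z i j * (weightA u x₀ p h P z *
          (bigZ u z (covZ u z x₀ p h) P ^ P.e0 * polyF u x₀ p h P.terms z j))) y := fun i =>
      pd_congr_on h2 hy2 (fun z hz => fluxPhi_eq P hP hh.ne' hz.1.2 (le_of_lt hz.2) i) i
    rw [sum_congr rfl fun i _ => hpd i, div_flux D2 hy2 hB P fun z hz => hz.2]
    have key := hJ _ (jet_valid D2 hy2 hB)
    rw [hd00] at key
    refine le_trans (le_of_eq ?_) (mul_le_mul_of_nonneg_left key ?_)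
    · rw [Real.rpow_add_one hd.ne']
      simp only [weightA, jetAt]
      ring
    · unfold weightA
      positivity

end

end Vale.Agent.P252.General
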