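import Vale.Agent.P252.Rigidity.General.Volume.MaxPoint

/-!
# The volume of a balanced cap against the Hessian determinant at its centre

`det D²u(x₀) |cap|² ≤ C hⁿ`.  Take rows `mᵢ` in the centred cap spanning a parallelepiped of
maximal volume; they satisfy `|Dũ·mᵢ| ≤ b hψ`.  At the maximum of
`η⁴ det D²u exp (A F)/ψⁿ` the maximum principle gives `ψ ≤ C η` and `∑ mᵢ·D²u mᵢ ≤ C h ψ`, hence
`det D²u (det M)² ≤ C hⁿ` there, and the value at `x₀` is smaller.
-/

namespace Vale.Agent.P252.General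

open scoped Matrix Topology
open MeasureTheory Filter Finset Rigidity
open Three (AM logDet)
open Mass Volume

noncomputable section

namespace Volume

variable {n : ℕ}

/-- A compact set lies in the parallelepiped of some of its points. -/
lemma exists_rows {S : Set (Fin n → ℝ)} (hS : IsCompact S) (hne : S.Nonempty) :
    ∃ M : Matrix (Fin n) (Fin n) ℝ, (∀ i, M i ∈ S) ∧
      volume S ≤ ENNReal.ofReal (2 ^ n * |M.det|) := by
  set T : Set (Fin n → Fin n → ℝ) := Set.pi Set.univ fun _ => S with hT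
  have hTc : IsCompact T := isCompact_univ_pi fun _ => hS
  have hTne : T.Nonempty := ⟨fun _ => hne.choose, fun i _ => hne.choose_spec⟩
  obtain ⟨M₀, hM₀, hmax⟩ := hTc.exists_isMaxOn hTne
    (f := fun M : Fin n → Fin n → ℝ => |(Matrix.of M).det|)
    (Continuous.continuousOn (Continuous.abs (Continuous.matrix_det (by fun_prop))))
  set M : Matrix (Fin n) (Fin n) ℝ := Matrix.of M₀ with hM
  have hrow : ∀ i, M i ∈ S := fun i => hM₀ i (Set.mem_univ i)
  have hle : ∀ N : Matrix (Fin n) (Fin n) ℝ, (∀ i, N i ∈ S) → |N.det| ≤ |M.det| :=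
    fun N hN => hmax (show (fun i => N i) ∈ T from fun i _ => hN i)
  refine ⟨M, hrow, ?_⟩
  rcases eq_or_ne M.det 0 with h0 | h0
  · have hsub : S ⊆ (Submodule.span ℝ S : Set (Fin n → ℝ)) := Submodule.subset_span
    have htop : Submodule.span ℝ S ≠ ⊤ := by
      intro htop
      obtain ⟨b, hbS, hbspan, hbli⟩ := exists_linearIndependent ℝ S
      rw [htop] at hbspan
      let B := Module.Basis.mk hbli (by rw [Subtype.range_coe, hbspan])
      have hfin : b.Finite := hbli.setFinite
      have := hfin.fintype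
      have hcard : Fintype.card b = n := by
        rw [← Module.finrank_eq_card_basis B, Module.finrank_fin_fun]
      let e : Fin n ≃ b := (Fintype.equivFinOfCardEq hcard).symm
      have hli : LinearIndependent ℝ (fun i : Fin n => ((e i : b) : Fin n → ℝ)) :=
        hbli.comp e e.injective
      have hu := Matrix.linearIndependent_rows_iff_isUnit.1
        (show LinearIndependent ℝ (Matrix.of fun i : Fin n => ((e i : b) : Fin n → ℝ)).row from hli)
      rw [Matrix.isUnit_iff_isUnit_det, isUnit_iff_ne_zero] at hu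
      have h1 := hle (Matrix.of fun i : Fin n => ((e i : b) : Fin n → ℝ)) fun i => hbS (e i).2
      rw [h0, abs_zero] at h1
      exact hu (abs_eq_zero.1 (le_antisymm h1 (abs_nonneg _)))
    rw [measure_mono_null hsub (Measure.addHaar_submodule volume _ htop)]
    exact zero_le
  have h1 : S ⊆ (Matrix.toLin' Mᵀ) '' Set.Icc (fun _ => (-1 : ℝ)) (fun _ => 1) := by
    intro s hs
    obtain ⟨c, hc⟩ : ∃ c : Fin n → ℝ, Mᵀ *ᵥ c = s := ⟨Mᵀ⁻¹ *ᵥ s, by
      rw [Matrix.mulVec_mulVec, Matrix.mul_nonsing_inv _ (by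
        rw [Matrix.det_transpose]; exact isUnit_iff_ne_zero.2 h0), Matrix.one_mulVec]⟩
    have hc' : s = ∑ k, c k • M k := by
      rw [← hc]
      ext i
      simp [Matrix.mulVec, dotProduct, mul_comm, Finset.sum_apply]
    have habs : ∀ i, |c i| ≤ 1 := by
      intro i
      have h := hle (M.updateRow i s) fun j => by
        rcases eq_or_ne j i with rfl | hj
        · rw [Matrix.updateRow_self]; exact hs
        · rw [Matrix.updateRow_ne hj]; exact hrow j
      rw [hc', Matrix.det_updateRow_sum, smul_eq_mul, abs_mul] at h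
      exact le_of_mul_le_mul_right (h.trans (le_of_eq (one_mul _).symm)) (abs_pos.2 h0)
    exact ⟨c, ⟨fun i => (abs_le.1 (habs i)).1, fun i => (abs_le.1 (habs i)).2⟩, by
      rw [Matrix.toLin'_apply, hc]⟩
  have v1 := (measure_mono h1).trans (le_of_eq (Measure.addHaar_image_linearMap volume _ _))
  rw [LinearMap.det_toLin', Matrix.det_transpose, Real.volume_Icc_pi] at v1
  refine v1.trans (le_of_eq ?_)
  rw [← ENNReal.ofReal_prod_of_nonneg (fun i _ => by norm_num),
    ← ENNReal.ofReal_mul (abs_nonneg _)]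
  congr 1
  simp only [Finset.prod_const, Finset.card_univ, Fintype.card_fin]
  rw [mul_comm]
  norm_num

/-- The determinant of a positive semidefinite matrix is at most the power of its trace. -/
lemma det_le_trace_pow {Q : Matrix (Fin n) (Fin n) ℝ} (hQ : Q.PosSemidef) :
    Q.det ≤ Q.trace ^ n := by
  rw [hQ.1.det_eq_prod_eigenvalues, hQ.1.trace_eq_sum_eigenvalues]
  simp only [RCLike.ofReal_real_eq_id, id_eq]
  refine (prod_le_prod (fun i _ => hQ.eigenvalues_nonneg i) fun i _ =>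
    single_le_sum (fun j _ => hQ.eigenvalues_nonneg j) (mem_univ i)).trans (le_of_eq ?_)
  simp

/-- `det (M H Mᵀ) ≤ (∑ mᵢ·H mᵢ)ⁿ`. -/
lemma det_sq_mul_le {M H : Matrix (Fin n) (Fin n) ℝ} (hH : H.PosSemidef) :
    M.det ^ 2 * H.det ≤ (∑ i, M i ⬝ᵥ (H *ᵥ M i)) ^ n := by
  have hQ : (M * H * Mᵀ).PosSemidef := by
    simpa [Matrix.conjTranspose_eq_transpose_of_trivial] using hH.mul_mul_conjTranspose_same M
  refine le_trans (le_of_eq ?_) ((det_le_trace_pow hQ).trans (le_of_eq ?_))
  · rw [Matrix.det_mul, Matrix.det_mul, Matrix.det_transpose]; ring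
  · congr 1
    refine sum_congr rfl fun i _ => ?_
    simp only [Matrix.diag_apply, Matrix.mul_apply, dotProduct, Matrix.mulVec, mul_sum, sum_mul,
      Matrix.transpose_apply]
    rw [sum_comm]
    exact sum_congr rfl fun j _ => sum_congr rfl fun k _ => by ring

variable {W : Set (Fin n → ℝ)} {u : (Fin n → ℝ) → ℝ} {x₀ p : Fin n → ℝ} {h β : ℝ}

/-- `|Dũ·m| ≤ max 1 β⁻¹ hψ` for the points of the centred cap. -/
lemma abs_kF_le (hu : AM W u) (hc : Convex ℝ W) (hh : 0 < h) (hβ : 0 < β)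
    (hK : IsCap u x₀ p h β W) (h0 : x₀ ∈ W) {m : Fin n → Fin n → ℝ}
    (hm : ∀ i, m i ∈ (fun z => z - x₀) '' capSet u x₀ p h W) {y : Fin n → ℝ} (hy : y ∈ W)
    (i : Fin n) : |kF u x₀ p h m i y| ≤ max 1 β⁻¹ := by
  have hψ := psiF_pos (p := p) hu hc hh h0 hy
  have hq := capGrad_mem (p := p) hu hc hh hy le_rfl hψ
  rw [Set.mem_smul_set_iff_inv_smul_mem₀ (mul_pos hψ hh).ne'] at hq
  have e : kF u x₀ p h m i y =
      ((psiF u x₀ p h y * h)⁻¹ • capGrad u x₀ p y) ⬝ᵥ m i := by
    simp only [kF, rec']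
    rw [mul_comm h, smul_dotProduct, smul_eq_mul]
    congr 1
    exact sum_congr rfl fun j _ => mul_comm _ _
  rw [e]
  set q := (psiF u x₀ p h y * h)⁻¹ • capGrad u x₀ p y
  obtain ⟨z, hz, hzm⟩ := hm i
  have h1 : q ⬝ᵥ m i ≤ 1 := hq _ (hm i)
  have h2 : q ⬝ᵥ (-β • m i) ≤ 1 := hq _ ⟨_, hK.bal z hz, by
    show x₀ - β • (z - x₀) - x₀ = _
    rw [← hzm, neg_smul]; abel⟩
  rw [dotProduct_smul, smul_eq_mul] at h2
  have h4 : -(q ⬝ᵥ m i) ≤ β⁻¹ := by rw [← one_div, le_div_iff₀ hβ]; linarith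
  rw [abs_le]
  constructor <;> linarith [le_max_left (1 : ℝ) β⁻¹, le_max_right (1 : ℝ) β⁻¹]

end Volume

/-- The volume of a balanced cap against the Hessian determinant at its centre. -/
theorem volumeBound {n : ℕ} {β : ℝ} (hn : 0 < n) (hβ : 0 < β) : VolumeBound n β := by
  set b : ℝ := max 1 β⁻¹ with hb
  set B2 : ℝ := n * b ^ 2 + 1 with hB2
  set A : ℝ := 1 / (256 * ((n : ℝ) + 2) * B2) with hA
  set K : ℝ := 9 + 5 * ((n : ℝ) + 1) * (n + 2) with hKdef
  set E : ℝ := 1 + β⁻¹ with hE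
  set T₀ : ℝ := 2 * K / A * (((n : ℝ) + 2) * K * E) with hT₀
  have hn1 : (1 : ℝ) ≤ n := by exact_mod_cast hn
  have hB1 : 1 ≤ B2 := by
    have : 0 ≤ (n : ℝ) * b ^ 2 := by positivity
    linarith
  have hA0 : 0 < A := by positivity
  have hK0 : 0 < K := by positivity
  have hE0 : 0 < E := by positivity
  have hAB : A / 2 * B2 ≤ 1 := by
    rw [show A / 2 * B2 = 1 / (512 * ((n : ℝ) + 2)) by rw [hA]; field_simp; ring,
      div_le_one (by positivity)]
    linarith
  refine ⟨4 ^ n * (E ^ 4 * Real.exp 1 * T₀ ^ n), by positivity,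
    fun {W u} hu hc x₀ hx₀ p h hh hcap => ?_⟩
  set S := capSet u x₀ p h W with hS
  have hSW : S ⊆ W := fun y hy => hy.1
  have hxS : x₀ ∈ S := ⟨hx₀, by rw [capFun_self]; exact hh.le⟩
  obtain ⟨M, hM, hvol⟩ := exists_rows
    (hcap.cpt.image (show Continuous fun z : Fin n → ℝ => z - x₀ by fun_prop))
    ⟨_, x₀, hxS, rfl⟩
  rw [show volume ((fun z => z - x₀) '' S) = volume S by
    rw [show (fun z => z - x₀) '' S = (fun z => z + x₀) ⁻¹' S from
      congrFun (Set.image_eq_preimage_of_inverse (fun z => sub_add_cancel z x₀)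
        fun z => add_sub_cancel_right z x₀) S, measure_preimage_add_right]] at hvol
  have hv := ENNReal.toReal_le_of_le_ofReal (by positivity) hvol
  set m : Fin n → Fin n → ℝ := fun i => M i with hm
  have hψ : ∀ z ∈ W, 1 ≤ psiF u x₀ p h z := fun z hz => one_le_psiF hu hc hh hz hx₀
  -- the test function
  set F : (Fin n → ℝ) → ℝ := fun z => ∑ i, kF u x₀ p h m i z * kF u x₀ p h m i z with hF
  have hFB : ∀ z ∈ W, F z ≤ B2 := fun z hz => by
    refine ((sum_le_card_nsmul univ _ (b ^ 2) fun i _ => ?_).trans (le_of_eq (by simp))).trans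
      (show (n : ℝ) * b ^ 2 ≤ B2 by rw [hB2]; linarith)
    have := mul_self_le_mul_self (abs_nonneg _) (abs_kF_le hu hc hh hβ hcap hx₀ hM hz i)
    rw [abs_mul_abs_self] at this
    rw [hb, sq]
    exact this
  set Φ : (Fin n → ℝ) → ℝ := fun z => max (etaF u x₀ p h z) 0 ^ 4 * (hess u z).det *
    Real.exp (A / 2 * F z) / psiF u x₀ p h z ^ n with hΦ
  have hkc : ∀ i, ContinuousOn (kF u x₀ p h m i) W := fun i =>
    ((ContinuousOn.inv₀ (continuousOn_const.mul (sm_psiF hu).continuousOn) fun z hz =>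
        (mul_pos hh (lt_of_lt_of_le one_pos (hψ z hz))).ne').mul
      (continuousOn_finsetSum _ fun j _ => continuousOn_const.mul (sm_capGrad hu j).continuousOn))
  have hΦc : ContinuousOn Φ W :=
    ((((((sm_etaF hu).continuousOn.sup continuousOn_const).pow 4).mul
      (sm_det (msm_hess hu.isOpen hu.sm)).continuousOn).mul
        (Real.continuous_exp.comp_continuousOn (continuousOn_const.mul
          (continuousOn_finsetSum _ fun i _ => (hkc i).mul (hkc i))))).div
      ((sm_psiF hu).continuousOn.pow n) fun z hz =>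
        (pow_pos (lt_of_lt_of_le one_pos (hψ z hz)) n).ne')
  obtain ⟨y, hyS, hmax⟩ := hcap.cpt.exists_isMaxOn ⟨x₀, hxS⟩ (hΦc.mono hSW)
  have hyW := hSW hyS
  have hψ0 : psiF u x₀ p h x₀ = 1 := by simp [psiF]
  have hη0 : etaF u x₀ p h x₀ = 1 := by simp [etaF]
  have hF0 : 0 ≤ F x₀ := sum_nonneg fun i _ => mul_self_nonneg _
  have hd0 := hu.det_pos hx₀
  have hΦ0 : (hess u x₀).det ≤ Φ x₀ := by
    simp only [Φ, hψ0, hη0, max_eq_left zero_le_one, one_pow, one_mul, div_one]
    exact le_mul_of_one_le_right hd0.le (Real.one_le_exp (by positivity))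
  have hle : Φ x₀ ≤ Φ y := hmax hxS
  have hηy : 0 < etaF u x₀ p h y := by
    by_contra hne
    have : Φ y = 0 := by simp [Φ, max_eq_right (not_lt.1 hne)]
    linarith
  -- the maximum principle
  set V : Set (Fin n → ℝ) := W ∩ etaF u x₀ p h ⁻¹' Set.Ioi 0 with hV
  have hVo : IsOpen V := (sm_etaF hu).continuousOn.isOpen_inter_preimage hu.isOpen isOpen_Ioi
  have hVS : V ⊆ S := fun z hz => ⟨hz.1, by
    have : capFun u x₀ p z / h < 1 := by
      have := hz.2
      simp only [Set.mem_preimage, Set.mem_Ioi, etaF] at this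
      linarith
    exact ((div_lt_one hh).1 this).le⟩
  have elog : ∀ z ∈ V, testF u x₀ p h m A z = Real.log (Φ z) := fun z hz => by
    have h1 : 0 < etaF u x₀ p h z := hz.2
    have h2 := hu.det_pos hz.1
    have h3 : 0 < psiF u x₀ p h z := lt_of_lt_of_le one_pos (hψ z hz.1)
    simp only [Φ, max_eq_left h1.le]
    rw [Real.log_div (by positivity) (by positivity), Real.log_mul (by positivity) (by positivity),
      Real.log_mul (by positivity) (by positivity), Real.log_pow, Real.log_pow, Real.log_exp]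
    simp only [testF, logDet, hF]
    push_cast
    ring
  have hloc : IsLocalMax (testF u x₀ p h m A) y := by
    filter_upwards [hVo.mem_nhds ⟨hyW, hηy⟩] with z hz
    rw [elog z hz, elog y ⟨hyW, hηy⟩]
    refine Real.log_le_log ?_ (hmax (hVS hz))
    have h1 : 0 < etaF u x₀ p h z := hz.2
    have h2 := hu.det_pos hz.1
    have h3 : 0 < psiF u x₀ p h z := lt_of_lt_of_le one_pos (hψ z hz.1)
    simp only [Φ, max_eq_left h1.le]
    positivity
  have key := max_point_ineq (am_mono hu hVo Set.inter_subset_left) hh (fun z hz => hz.2)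
    (fun z hz => lt_of_lt_of_le one_pos (hψ z hz.1)) hn hB1 hA (y := y) ⟨hyW, hηy⟩
    (hFB y hyW) hloc
  have hψy := lt_of_lt_of_le one_pos (hψ y hyW)
  have hH := (hu.pos y hyW).posSemidef
  set Q : ℝ := ∑ i, m i ⬝ᵥ hessVec u (m i) y with hQ
  have hQ0 : 0 ≤ Q := sum_nonneg fun i _ => by
    simpa [hessVec] using hH.dotProduct_mulVec_nonneg (m i)
  simp only [rec', ← hKdef, ← hQ] at key
  have hηE : etaF u x₀ p h y ≤ E := etaF_le hu hc hh hβ hcap hyS
  have hψE : psiF u x₀ p h y ≤ ((n : ℝ) + 2) * K * E := by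
    have h1 : (n : ℝ) / ((n : ℝ) + 2) * (h * etaF u x₀ p h y)⁻¹ ≤
        K * (h * psiF u x₀ p h y)⁻¹ := by
      refine le_trans (le_add_of_nonneg_right ?_) key
      positivity
    have h2 : (n : ℝ) * psiF u x₀ p h y ≤ ((n : ℝ) + 2) * K * etaF u x₀ p h y := by
      field_simp at h1
      linarith
    calc psiF u x₀ p h y ≤ n * psiF u x₀ p h y := le_mul_of_one_le_left hψy.le hn1
      _ ≤ _ := h2.trans (mul_le_mul_of_nonneg_left hηE (by positivity))
  have hQb : Q ≤ T₀ * h := by
    have h1 : A / 2 * (h * psiF u x₀ p h y)⁻¹ ^ 2 * Q ≤ K * (h * psiF u x₀ p h y)⁻¹ := by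
      refine le_trans (le_add_of_nonneg_left ?_) key
      positivity
    have h2 : Q ≤ 2 * K / A * (h * psiF u x₀ p h y) := by
      field_simp at h1 ⊢
      linarith
    refine h2.trans (le_of_le_of_eq (mul_le_mul_of_nonneg_left
      (mul_le_mul_of_nonneg_left hψE hh.le) (by positivity)) ?_)
    rw [hT₀]; ring
  have hMd : M.det ^ 2 * (hess u y).det ≤ (T₀ * h) ^ n :=
    (det_sq_mul_le hH).trans (pow_le_pow_left₀ hQ0 hQb n)
  have hΦy : Φ y ≤ E ^ 4 * Real.exp 1 * (hess u y).det := by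
    have hdy := hu.det_pos hyW
    simp only [Φ, max_eq_left hηy.le]
    refine (div_le_self (by positivity) (one_le_pow₀ (hψ y hyW))).trans ?_
    have e1 : Real.exp (A / 2 * F y) ≤ Real.exp 1 := Real.exp_le_exp.2
      ((mul_le_mul_of_nonneg_left (hFB y hyW) (by positivity)).trans hAB)
    calc etaF u x₀ p h y ^ 4 * (hess u y).det * Real.exp (A / 2 * F y)
        ≤ E ^ 4 * (hess u y).det * Real.exp 1 := by gcongr
      _ = _ := by ring
  have hd : (hess u x₀).det ≤ E ^ 4 * Real.exp 1 * (hess u y).det :=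
    hΦ0.trans (hle.trans hΦy)
  calc (hess u x₀).det * (volume S).toReal ^ 2
      ≤ E ^ 4 * Real.exp 1 * (hess u y).det * (2 ^ n * |M.det|) ^ 2 :=
        mul_le_mul hd (pow_le_pow_left₀ ENNReal.toReal_nonneg hv 2) (by positivity)
          (hd0.le.trans hd)
    _ = 4 ^ n * (E ^ 4 * Real.exp 1) * (M.det ^ 2 * (hess u y).det) := by
        rw [mul_pow, sq_abs, ← pow_mul, mul_comm n 2, pow_mul]
        norm_num
        ring
    _ ≤ 4 ^ n * (E ^ 4 * Real.exp 1) * (T₀ * h) ^ n :=
        mul_le_mul_of_nonneg_left hMd (by positivity)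
    _ = _ := by rw [mul_pow]; ring

end

end Vale.Agent.P252.General
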