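import Vale.Agent.P252.Rigidity.General.AssemblyLow
import Vale.Agent.P252.Rigidity.General.Cap
import Vale.Agent.P252.Rigidity.General.Mass
import Vale.Agent.P252.Rigidity.General.Pointwise
import Vale.Agent.P252.Rigidity.General.Volume

/-!
# From a certificate to the affine Bernstein theorem in `n` variables
-/

namespace Vale.Agent.P252.General

open scoped ContDiff Topology Matrix
open Finset Rigidity
open Three (AM)

noncomputable section

variable {n : ℕ}

/-- The Hessian of a quadratic polynomial. -/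
lemma hess_quadratic {u : (Fin n → ℝ) → ℝ} (A : Matrix (Fin n) (Fin n) ℝ) (b : Fin n → ℝ) (c : ℝ)
    (hu : ∀ x, u x = (∑ i, ∑ j, A i j * x i * x j) + (∑ i, b i * x i) + c) (y : Fin n → ℝ) :
    hess u y = A + Aᵀ := by
  have hd : ∀ (k : Fin n) (z : Fin n → ℝ), DifferentiableAt ℝ (fun w : Fin n → ℝ => w k) z :=
    fun k z => differentiableAt_apply k z
  have hc : ∀ (i k : Fin n) (z : Fin n → ℝ),
      pd i (fun w : Fin n → ℝ => w k) z = if k = i then 1 else 0 := fun i k z => by
    rw [pd, (hasFDerivAt_apply (𝕜 := ℝ) k z).fderiv]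
    simp [Pi.single_apply]
  have h2 : ∀ i j z, DifferentiableAt ℝ (fun w : Fin n → ℝ => A i j * w i * w j) z :=
    fun i j z => ((hd i z).const_mul _).fun_mul (hd j z)
  have h1 : ∀ k z, pd k u z = (∑ i, (A + Aᵀ) k i * z i) + b k := fun k z => by
    rw [show u = fun x => (∑ i, ∑ j, A i j * x i * x j) + (∑ i, b i * x i) + c from funext hu,
      pd_add ((DifferentiableAt.fun_sum fun i _ => DifferentiableAt.fun_sum fun j _ => h2 i j z).fun_add
        (DifferentiableAt.fun_sum fun i _ => (hd i z).const_mul _)) (differentiableAt_const _),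
      pd_const, pd_add (DifferentiableAt.fun_sum fun i _ => DifferentiableAt.fun_sum fun j _ =>
        h2 i j z) (DifferentiableAt.fun_sum fun i _ => (hd i z).const_mul _),
      pd_sum (fun i _ => DifferentiableAt.fun_sum fun j _ => h2 i j z),
      pd_sum (fun i _ => (hd i z).const_mul _)]
    have e : ∀ i, pd k (fun y => ∑ j, A i j * y i * y j) z =
        ∑ j, A i j * ((if i = k then 1 else 0) * z j + z i * (if j = k then 1 else 0)) := fun i => by
      rw [pd_sum fun j _ => h2 i j z]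
      refine sum_congr rfl fun j _ => ?_
      rw [pd_mul ((hd i z).const_mul _) (hd j z), pd_mul (differentiableAt_const _) (hd i z),
        pd_const, hc, hc]
      ring
    have e' : ∀ i, pd k (fun y => b i * y i) z = if i = k then b i else 0 := fun i => by
      rw [pd_mul (differentiableAt_const _) (hd i z), pd_const, hc]
      split <;> simp
    simp only [e, e']
    simp [mul_add, add_mul, sum_add_distrib]
  ext i j
  show pd i (fun w => pd j u w) y = _
  rw [show (fun w => pd j u w) = fun w => (∑ k, (A + Aᵀ) j k * w k) + b j from funext (h1 j),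
    pd_add (DifferentiableAt.fun_sum fun k _ => (hd k y).const_mul _) (differentiableAt_const _),
    pd_const, pd_sum (fun k _ => (hd k y).const_mul _)]
  have e : ∀ k, pd i (fun w => (A + Aᵀ) j k * w k) y = if k = i then (A + Aᵀ) j k else 0 :=
    fun k => by
      rw [pd_mul (differentiableAt_const _) (hd k y), pd_const, hc]
      split <;> simp
  simp only [e, sum_ite_eq', mem_univ, if_true, add_zero]
  simp [add_comm]

/-- Every graph over the whole space is complete. -/
theorem graphComplete_univ (u : (Fin n → ℝ) → ℝ) : GraphComplete Set.univ u :=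
  fun γ _ hγ _ => ⟨γ 1, Set.mem_univ _,
    hγ.continuous.continuousAt.tendsto.mono_left nhdsWithin_le_nhds⟩

/-- Rigidity makes a complete affine maximal graph an elliptic paraboloid. -/
theorem bernstein_of_rigid (hR : Rigid n) {W : Set (Fin n → ℝ)} {u : (Fin n → ℝ) → ℝ}
    (hu : AM W u) (hne : W.Nonempty) (hc : Convex ℝ W) (hcomp : GraphComplete W u) :
    W = Set.univ ∧ ∃ (A : Matrix (Fin n) (Fin n) ℝ) (b : Fin n → ℝ) (c : ℝ), A.PosDef ∧
      ∀ x, u x = (1 / 2) * (x ⬝ᵥ (A *ᵥ x)) + b ⬝ᵥ x + c := by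
  obtain ⟨hW, A, b, c, hq⟩ := hR hu hne hc hcomp
  refine ⟨hW, A + Aᵀ, b, c, ?_, fun x => ?_⟩
  · rw [← hess_quadratic A b c hq 0]
    exact hu.pos 0 (hW ▸ Set.mem_univ _)
  · have e : x ⬝ᵥ (Aᵀ *ᵥ x) = x ⬝ᵥ (A *ᵥ x) := by
      rw [Matrix.dotProduct_mulVec, Matrix.vecMul_transpose, dotProduct_comm]
    have e' : x ⬝ᵥ (A *ᵥ x) = ∑ i, ∑ j, A i j * x i * x j := by
      simp only [Matrix.mulVec, dotProduct, mul_sum]
      exact sum_congr rfl fun i _ => sum_congr rfl fun j _ => by ring
    rw [hq x, Matrix.add_mulVec, dotProduct_add, e, e']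
    simp only [dotProduct]
    ring

/-- A certificate with weight exponent `q = γ + 1 ≤ 1/2` and degree above `n` gives rigidity. -/
theorem rigid_of_cert (hn : 0 < n) {P : Params} {m : ℕ} (hP : CertIneq n P)
    (hdn : (n : ℝ) < P.deg) (hq : P.gam + 1 ≤ 1 / 2) (ha : (m : ℝ) + P.deg / 2 ≤ P.a)
    (hM : MassBound n (capBeta n) m (P.gam + 1)) : Rigid n :=
  lowAssembly hn hdn (capBeta_pos n) hq ha (pointwiseGoal n P hP) (capExists n) hM
    (volumeBound hn (capBeta_pos n))

/-- Four variables, weight exponent `1/2`. -/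
theorem rigid_four_of_cert {P : Params} (hP : CertIneq 4 P) (hgam : P.gam = -1 / 2)
    (ha : 3 + P.deg / 2 ≤ P.a) : Rigid 4 := by
  have hq : P.gam + 1 = 1 / 2 := by rw [hgam]; norm_num
  have hM : MassBound 4 (capBeta 4) 3 (P.gam + 1) := by
    rw [hq]; exact massBound_half_four (capBeta_pos 4) le_rfl
  exact @rigid_of_cert 4 (by norm_num) P 3 hP (by exact_mod_cast hP.2.1) hq.le
    (by exact_mod_cast ha) hM

/-- Five variables, weight exponent `1/2`. -/
theorem rigid_five_of_cert {P : Params} (hP : CertIneq 5 P) (hgam : P.gam = -1 / 2)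
    (hdeg : 5 < P.deg) (ha : 3 + P.deg / 2 ≤ P.a) : Rigid 5 := by
  have hq : P.gam + 1 = 1 / 2 := by rw [hgam]; norm_num
  have hM : MassBound 5 (capBeta 5) 3 (P.gam + 1) := by
    rw [hq]; exact massBound_half_five (capBeta_pos 5) le_rfl
  exact @rigid_of_cert 5 (by norm_num) P 3 hP (by exact_mod_cast hdeg) hq.le
    (by exact_mod_cast ha) hM

/-- The statement of the affine Bernstein theorem in `n` variables, from rigidity: over convex
domains with complete graph, and for entire graphs. -/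
theorem bernstein_both (hR : Rigid n) :
    (∀ (Ω : Set (Fin n → ℝ)) (u : (Fin n → ℝ) → ℝ), IsOpen Ω → Ω.Nonempty → Convex ℝ Ω →
      ContDiffOn ℝ ∞ u Ω → (∀ x ∈ Ω, (hess u x).PosDef) →
      (∀ x ∈ Ω, ∑ i, ∑ j, (hess u x).det * (hess u x)⁻¹ i j * hess (affineW u) x i j = 0) →
      GraphComplete Ω u →
      Ω = Set.univ ∧ ∃ (A : Matrix (Fin n) (Fin n) ℝ) (b : Fin n → ℝ) (c : ℝ), A.PosDef ∧
        ∀ x, u x = (1 / 2) * (x ⬝ᵥ (A *ᵥ x)) + b ⬝ᵥ x + c) ∧
    (∀ u : (Fin n → ℝ) → ℝ, ContDiff ℝ ∞ u → (∀ x, (hess u x).PosDef) → IsAffineMaximal u →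
      ∃ (A : Matrix (Fin n) (Fin n) ℝ) (b : Fin n → ℝ) (c : ℝ), A.PosDef ∧
        ∀ x, u x = (1 / 2) * (x ⬝ᵥ (A *ᵥ x)) + b ⬝ᵥ x + c) :=
  ⟨fun _ _ h1 h2 h3 h4 h5 h6 h7 => bernstein_of_rigid hR ⟨h1, h4, h5, h6⟩ h2 h3 h7,
   fun u h1 h2 h3 => (bernstein_of_rigid hR ⟨isOpen_univ, h1.contDiffOn, fun x _ => h2 x,
      fun x _ => h3 x⟩ Set.univ_nonempty convex_univ (graphComplete_univ u)).2⟩

end

end Vale.Agent.P252.General
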