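import Vale.Agent.P252.Rigidity.General.Spec
import Vale.Agent.P252.Rigidity.Three.Glue
import Vale.Agent.P252.Rigidity.Piola

/-!
# Affine maximal functions of `n` variables: covariant derivatives of fields

At a general point, in matrix form, `G = (D²u)⁻¹`: the divergence `tr (G ∇F)` of the fields
`D²log det · GF` and `D³u(GF, GK, ·)`, and the gradients of their bilinear forms.
-/

namespace Vale.Agent.P252.General

open scoped ContDiff Topology Matrix
open Finset

noncomputable section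

variable {n : ℕ} {W : Set (Fin n → ℝ)} {u : (Fin n → ℝ) → ℝ} {y : Fin n → ℝ}

/-- Componentwise smoothness of a vector field. -/
def VSm (W : Set (Fin n → ℝ)) (F : (Fin n → ℝ) → Fin n → ℝ) : Prop := ∀ i, Sm W fun y => F y i

/-- The gradient. -/
def grd (f : (Fin n → ℝ) → ℝ) (y : Fin n → ℝ) : Fin n → ℝ := fun i => pd i f y

/-- The derivative `∂ᵢ F_j` of a covector field, in entry `(i, j)`. -/
def vd (F : (Fin n → ℝ) → Fin n → ℝ) (y : Fin n → ℝ) : Matrix (Fin n) (Fin n) ℝ :=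
  Matrix.of fun i j => pd i (fun z => F z j) y

/-- `tr (G ∇F)`. -/
def gdiv (u : (Fin n → ℝ) → ℝ) (F : (Fin n → ℝ) → Fin n → ℝ) (y : Fin n → ℝ) : ℝ :=
  ∑ i, ∑ j, hinv u y i j * vd F y i j

/-- `D³u(A, ·, ·)`. -/
def Cm (u : (Fin n → ℝ) → ℝ) (y A : Fin n → ℝ) : Matrix (Fin n) (Fin n) ℝ :=
  ∑ k, A k • mh u k y

variable {F K : (Fin n → ℝ) → Fin n → ℝ} {f : (Fin n → ℝ) → ℝ}
  {M : (Fin n → ℝ) → Matrix (Fin n) (Fin n) ℝ}

lemma VSm.add (hF : VSm W F) (hK : VSm W K) : VSm W fun y => F y + K y := fun i =>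
  (hF i).add (hK i)

lemma VSm.sub (hF : VSm W F) (hK : VSm W K) : VSm W fun y => F y - K y := fun i =>
  (hF i).sub (hK i)

lemma VSm.smul (hf : Sm W f) (hF : VSm W F) : VSm W fun y => f y • F y := fun i => hf.mul (hF i)

lemma VSm.mulVec (hM : MSm W M) (hF : VSm W F) : VSm W fun y => M y *ᵥ F y := fun i =>
  show Sm W fun y => ∑ j, M y i j * F y j from sm_sum _ fun j _ => (hM i j).mul (hF j)

lemma sm_dotProduct (hF : VSm W F) (hK : VSm W K) : Sm W fun y => F y ⬝ᵥ K y :=
  sm_sum _ fun j _ => (hF j).mul (hK j)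

lemma grd_congr_on (hW : IsOpen W) (hy : y ∈ W) {g : (Fin n → ℝ) → ℝ}
    (h : ∀ z ∈ W, f z = g z) : grd f y = grd g y :=
  funext fun i => pd_congr_on hW hy h i

lemma vd_mulVec (hW : IsOpen W) (hy : y ∈ W) (hM : MSm W M) (hF : VSm W F) (i j : Fin n) :
    vd (fun z => M z *ᵥ F z) y i j = (mpd i M y *ᵥ F y) j + (M y *ᵥ vd F y i) j := by
  show pd i (fun z => ∑ k, M z j k * F z k) y = _
  rw [pd_sum fun k _ => ((hM j k).mul (hF k)).differentiableAt hW hy]
  show _ = (∑ k, mpd i M y j k * F y k) + ∑ k, M y j k * vd F y i k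
  rw [← sum_add_distrib]
  exact sum_congr rfl fun k _ =>
    pd_mul ((hM j k).differentiableAt hW hy) ((hF k).differentiableAt hW hy) i

lemma grd_dotProduct (hW : IsOpen W) (hy : y ∈ W) (hF : VSm W F) (hK : VSm W K) :
    grd (fun z => F z ⬝ᵥ K z) y = vd F y *ᵥ K y + vd K y *ᵥ F y := by
  funext i
  show pd i (fun z => ∑ k, F z k * K z k) y = _
  rw [pd_sum fun k _ => ((hF k).mul (hK k)).differentiableAt hW hy]
  show _ = (∑ k, vd F y i k * K y k) + ∑ k, vd K y i k * F y k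
  rw [← sum_add_distrib]
  refine sum_congr rfl fun k _ => ?_
  rw [pd_mul ((hF k).differentiableAt hW hy) ((hK k).differentiableAt hW hy) i]
  simp [vd]
  ring

lemma vd_smul (hW : IsOpen W) (hy : y ∈ W) (hf : Sm W f) (hF : VSm W F) :
    vd (fun z => f z • F z) y = Matrix.vecMulVec (grd f y) (F y) + f y • vd F y := by
  ext i j
  show pd i (fun z => f z * F z j) y = _
  rw [pd_mul (hf.differentiableAt hW hy) ((hF j).differentiableAt hW hy) i]
  rfl

lemma gdiv_add (hW : IsOpen W) (hy : y ∈ W) (hF : VSm W F) (hK : VSm W K) :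
    gdiv u (fun z => F z + K z) y = gdiv u F y + gdiv u K y := by
  simp only [gdiv, ← sum_add_distrib, ← mul_add]
  exact sum_congr rfl fun i _ => sum_congr rfl fun j _ => congrArg _
    (pd_add ((hF j).differentiableAt hW hy) ((hK j).differentiableAt hW hy) i)

lemma gdiv_sub (hW : IsOpen W) (hy : y ∈ W) (hF : VSm W F) (hK : VSm W K) :
    gdiv u (fun z => F z - K z) y = gdiv u F y - gdiv u K y := by
  simp only [gdiv, ← sum_sub_distrib, ← mul_sub]
  exact sum_congr rfl fun i _ => sum_congr rfl fun j _ => congrArg _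
    (pd_sub ((hF j).differentiableAt hW hy) ((hK j).differentiableAt hW hy) i)

lemma gdiv_smul (hW : IsOpen W) (hy : y ∈ W) (hf : Sm W f) (hF : VSm W F) :
    gdiv u (fun z => f z • F z) y = grd f y ⬝ᵥ (hinv u y *ᵥ F y) + f y * gdiv u F y := by
  simp only [gdiv, vd_smul hW hy hf hF, Matrix.add_apply, Matrix.smul_apply,
    Matrix.vecMulVec_apply, smul_eq_mul, dotProduct, Matrix.mulVec, mul_sum, ← sum_add_distrib]
  exact sum_congr rfl fun i _ => sum_congr rfl fun j _ => by ring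

lemma gdiv_const_smul (hW : IsOpen W) (hy : y ∈ W) (c : ℝ) (hF : VSm W F) :
    gdiv u (fun z => c • F z) y = c * gdiv u F y := by
  have e : grd (fun _ : Fin n → ℝ => c) y = 0 := funext fun i => pd_const c i
  rw [gdiv_smul hW hy (sm_const c) hF, e, zero_dotProduct, zero_add]

lemma gdiv_zero : gdiv u (fun _ => (0 : Fin n → ℝ)) y = 0 := by
  have : ∀ i j, vd (fun _ => (0 : Fin n → ℝ)) y i j = 0 := fun i _ => pd_const 0 i
  simp [gdiv, this]

lemma gdiv_eq_trace : gdiv u F y = (hinv u y * (vd F y)ᵀ).trace := by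
  simp [gdiv, Matrix.trace, Matrix.mul_apply]

/-- The divergence of `M F`. -/
lemma gdiv_mulVec (hW : IsOpen W) (hy : y ∈ W) (hM : MSm W M) (hF : VSm W F) :
    gdiv u (fun z => M z *ᵥ F z) y =
      (fun b => ∑ i, ∑ j, hinv u y i j * mpd i M y j b) ⬝ᵥ F y +
        (hinv u y * (M y * (vd F y)ᵀ)).trace := by
  simp only [gdiv, vd_mulVec hW hy hM hF, mul_add, sum_add_distrib]
  refine congrArg₂ (· + ·) ?_ ?_
  · simp only [dotProduct, Matrix.mulVec, mul_sum, sum_mul, ← mul_assoc]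
    exact (sum_congr rfl fun i _ => sum_comm).trans sum_comm
  · simp [Matrix.trace, Matrix.mul_apply, Matrix.mulVec, dotProduct]

/-- The gradient of `A · M B`. -/
lemma grd_bilin (hW : IsOpen W) (hy : y ∈ W) (hM : MSm W M) (hF : VSm W F) (hK : VSm W K) :
    grd (fun z => F z ⬝ᵥ (M z *ᵥ K z)) y = vd F y *ᵥ (M y *ᵥ K y) +
      vd K y *ᵥ ((M y)ᵀ *ᵥ F y) + fun i => F y ⬝ᵥ (mpd i M y *ᵥ K y) := by
  rw [grd_dotProduct hW hy hF (VSm.mulVec hM hK), add_assoc]
  congr 1
  funext i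
  have e : ∀ j, vd (fun z => M z *ᵥ K z) y i j = (mpd i M y *ᵥ K y) j + (M y *ᵥ vd K y i) j :=
    fun j => vd_mulVec hW hy hM hK i j
  have h2 : ∀ v : Fin n → ℝ,
      (M y *ᵥ v) ⬝ᵥ F y = v ⬝ᵥ ((M y)ᵀ *ᵥ F y) := fun v => by
    rw [Matrix.dotProduct_mulVec, Matrix.vecMul_transpose]
  show (fun j => vd (fun z => M z *ᵥ K z) y i j) ⬝ᵥ F y =
    vd K y i ⬝ᵥ ((M y)ᵀ *ᵥ F y) + F y ⬝ᵥ (mpd i M y *ᵥ K y)
  rw [funext e, show (fun j => (mpd i M y *ᵥ K y) j + (M y *ᵥ vd K y i) j) =
    mpd i M y *ᵥ K y + M y *ᵥ vd K y i from rfl, add_dotProduct,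
    dotProduct_comm (mpd i M y *ᵥ K y), h2]
  ring

lemma pd_exp (hf : DifferentiableAt ℝ f y) (i : Fin n) :
    pd i (fun z => Real.exp (f z)) y = Real.exp (f y) * pd i f y := by
  simp [pd, hf.hasFDerivAt.exp.fderiv]

/-- A symmetric trilinear form may be permuted. -/
lemma sym3_dot_swap {X : Fin n → Matrix (Fin n) (Fin n) ℝ} (hX : Sym3 X) (A B V : Fin n → ℝ) :
    (fun i => A ⬝ᵥ (X i *ᵥ V)) ⬝ᵥ B = (fun i => B ⬝ᵥ (X i *ᵥ V)) ⬝ᵥ A := by
  simp only [dotProduct, Matrix.mulVec, mul_sum, sum_mul]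
  rw [sum_comm]
  exact sum_congr rfl fun a _ => sum_congr rfl fun b _ => sum_congr rfl fun c _ => by
    rw [hX.s12 b a c]; ring

variable (hu : Three.AM W u)
include hu

lemma det_ne_zero : ∀ z ∈ W, (hess u z).det ≠ 0 := fun _ hz => (hu.det_pos hz).ne'

lemma hinv_mul_hess (hy : y ∈ W) : hinv u y * hess u y = 1 :=
  Matrix.nonsing_inv_mul _ (det_ne_zero hu y hy).isUnit

lemma hinv_transpose (hy : y ∈ W) : (hinv u y)ᵀ = hinv u y := by
  rw [hinv, Matrix.transpose_nonsing_inv, hess_symm hu.isOpen hu.sm hy]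

lemma msm_mh' (k : Fin n) : MSm W (mh u k) := (msm_hess hu.isOpen hu.sm).mpd hu.isOpen k

lemma mpd_hinv' (hy : y ∈ W) (m : Fin n) :
    mpd m (hinv u) y = -(hinv u y * mh u m y * hinv u y) :=
  mpd_inv hu.isOpen (msm_hess hu.isOpen hu.sm) (det_ne_zero hu) hy m

lemma sym3_mh (hy : y ∈ W) : Sym3 fun k => mh u k y where
  s12 a b c := (mpd_hess_symm hu.isOpen hu.sm hy a b c).1
  s23 a b c := (mpd_hess_symm hu.isOpen hu.sm hy a b c).2

lemma Cm_transpose (hy : y ∈ W) (A : Fin n → ℝ) : (Cm u y A)ᵀ = Cm u y A := by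
  simp only [Cm, Matrix.transpose_sum, Matrix.transpose_smul,
    fun k => (sym3_mh hu hy).transpose k]

lemma Cm_apply (hy : y ∈ W) (A : Fin n → ℝ) (i j : Fin n) :
    Cm u y A i j = (mh u i y *ᵥ A) j := by
  simp only [Cm, Matrix.sum_apply, Matrix.smul_apply, smul_eq_mul, Matrix.mulVec, dotProduct]
  refine sum_congr rfl fun k _ => ?_
  rw [mul_comm]
  congr 1
  exact ((sym3_mh hu hy).s12 k i j).trans ((sym3_mh hu hy).s23 i k j)

lemma Cm_mulVec (hy : y ∈ W) (A B : Fin n → ℝ) (k : Fin n) :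
    (Cm u y A *ᵥ B) k = A ⬝ᵥ (mh u k y *ᵥ B) := by
  simp only [Cm, Matrix.mulVec, dotProduct, Matrix.sum_apply, Matrix.smul_apply, smul_eq_mul,
    sum_mul, mul_sum]
  rw [sum_comm]
  exact sum_congr rfl fun l _ => sum_congr rfl fun j _ => by
    rw [(sym3_mh hu hy).s12 l k j, mul_assoc]

lemma Cm_comm (hy : y ∈ W) (A B : Fin n → ℝ) : Cm u y A *ᵥ B = Cm u y B *ᵥ A := by
  funext k
  rw [Cm_mulVec hu hy, Cm_mulVec hu hy, Matrix.dotProduct_mulVec, dotProduct_comm,
    ← Matrix.mulVec_transpose, (sym3_mh hu hy).transpose k]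

lemma msm_Cm {A : (Fin n → ℝ) → Fin n → ℝ} (hA : VSm W A) : MSm W fun z => Cm u z (A z) :=
  fun i j => by
    simp only [Cm, Matrix.sum_apply, Matrix.smul_apply, smul_eq_mul]
    exact sm_sum _ fun k _ => (hA k).mul (msm_mh' hu k i j)

lemma pd_logDet (hy : y ∈ W) (k : Fin n) :
    pd k (Three.logDet u) y = (hinv u y * mh u k y).trace := by
  have hd := (sm_det (msm_hess hu.isOpen hu.sm)).differentiableAt hu.isOpen hy
  have e : pd k (Three.logDet u) y = (hess u y).det⁻¹ * pd k (fun z => (hess u z).det) y := by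
    show fderiv ℝ (fun z => Real.log (hess u z).det) y _ = _
    rw [(hd.hasFDerivAt.log (det_ne_zero hu y hy)).fderiv]
    rfl
  rw [e, pd_det hu.isOpen (msm_hess hu.isOpen hu.sm) (det_ne_zero hu y hy) hy k, ← mul_assoc,
    inv_mul_cancel₀ (det_ne_zero hu y hy), one_mul]
  rfl

/-- The derivative of the vector `G F`. -/
lemma vd_ginv (hy : y ∈ W) (hF : VSm W F) :
    vd (fun z => hinv u z *ᵥ F z) y = (vd F y - Cm u y (hinv u y *ᵥ F y)) * hinv u y := by
  ext i j
  rw [vd_mulVec hu.isOpen hy hu.msm_hinv hF, mpd_hinv' hu hy, Matrix.neg_mulVec, Pi.neg_apply,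
    ← Matrix.mulVec_mulVec, ← Matrix.mulVec_mulVec, Matrix.sub_mul, Matrix.sub_apply]
  have e : (mh u i y *ᵥ (hinv u y *ᵥ F y)) = fun k => Cm u y (hinv u y *ᵥ F y) i k :=
    funext fun k => (Cm_apply hu hy _ i k).symm
  rw [e]
  have hG : ∀ k, hinv u y j k = hinv u y k j := fun k =>
    (congrFun (congrFun (hinv_transpose hu hy) j) k).symm
  simp only [Matrix.mulVec, dotProduct, Matrix.mul_apply, hG, mul_comm]
  ring

lemma vd_ginv_transpose (hy : y ∈ W) (hF : VSm W F) :
    (vd (fun z => hinv u z *ᵥ F z) y)ᵀ = hinv u y * (vd F y - Cm u y (hinv u y *ᵥ F y))ᵀ := by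
  rw [vd_ginv hu hy hF, Matrix.transpose_mul, hinv_transpose hu hy]

lemma vsm_grd_logDet : VSm W (grd (Three.logDet u)) := fun i => hu.sm_logDet.pd hu.isOpen i

omit hu in
lemma vd_grd_logDet : vd (grd (Three.logDet u)) y = hess (Three.logDet u) y := rfl

/-- The equation: `tr (G D² log det) = θ |D log det|²`, `θ = (n+1)/(n+2)`. -/
lemma trace_logDet (hy : y ∈ W) :
    (hinv u y * hess (Three.logDet u) y).trace = ((n : ℝ) + 1) / ((n : ℝ) + 2) *
      (grd (Three.logDet u) y ⬝ᵥ (hinv u y *ᵥ grd (Three.logDet u) y)) := by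
  set θ : ℝ := ((n : ℝ) + 1) / ((n : ℝ) + 2) with hθ
  have hθ0 : 0 < θ := by positivity
  have hL := hu.sm_logDet
  have hw : ∀ z ∈ W, affineW u z = Real.exp (-θ * Three.logDet u z) := fun z hz => by
    rw [affineW, Real.rpow_def_of_pos (hu.det_pos hz), Three.logDet, hθ]
    ring_nf
  have hl : Sm W fun z => -θ * Three.logDet u z := (sm_const (-θ)).mul hL
  have h1 : ∀ z ∈ W, ∀ j, pd j (affineW u) z =
      Real.exp (-θ * Three.logDet u z) * (-θ * pd j (Three.logDet u) z) := fun z hz j => by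
    rw [pd_congr_on hu.isOpen hz hw, pd_exp (hl.differentiableAt hu.isOpen hz),
      pd_mul (differentiableAt_const _) (hL.differentiableAt hu.isOpen hz), pd_const, zero_mul,
      zero_add]
  have he : Sm W fun z => Real.exp (-θ * Three.logDet u z) := ContDiffOn.exp hl
  have h2 : ∀ i j, hess (affineW u) y i j = Real.exp (-θ * Three.logDet u y) *
      (θ ^ 2 * (pd i (Three.logDet u) y * pd j (Three.logDet u) y) -
        θ * hess (Three.logDet u) y i j) := by
    intro i j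
    show pd i (fun z => pd j (affineW u) z) y = _
    rw [pd_congr_on hu.isOpen hy (fun z hz => h1 z hz j),
      pd_mul (he.differentiableAt hu.isOpen hy)
        (((sm_const (-θ)).mul (hL.pd hu.isOpen j)).differentiableAt hu.isOpen hy),
      pd_exp (hl.differentiableAt hu.isOpen hy),
      pd_mul (differentiableAt_const _) (hL.differentiableAt hu.isOpen hy),
      pd_mul (differentiableAt_const _) ((hL.pd hu.isOpen j).differentiableAt hu.isOpen hy),
      pd_const]
    show _ = Real.exp (-θ * Three.logDet u y) *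
      (θ ^ 2 * _ - θ * pd i (fun z => pd j (Three.logDet u) z) y)
    ring
  have e := hu.eq y hy
  simp only [h2] at e
  set c : ℝ := (hess u y).det * Real.exp (-θ * Three.logDet u y) * θ with hc
  set g := grd (Three.logDet u) y with hg
  have hA : ∑ i, ∑ j, (hess u y).det * (hess u y)⁻¹ i j * (Real.exp (-θ * Three.logDet u y) *
      (θ ^ 2 * (pd i (Three.logDet u) y * pd j (Three.logDet u) y) -
        θ * hess (Three.logDet u) y i j)) =
      c * (θ * (g ⬝ᵥ (hinv u y *ᵥ g)) - (hinv u y * (hess (Three.logDet u) y)ᵀ).trace) := by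
    simp only [Matrix.trace, Matrix.diag, Matrix.mul_apply, Matrix.transpose_apply, dotProduct,
      Matrix.mulVec, mul_sum, mul_sub, ← sum_sub_distrib]
    exact sum_congr rfl fun i _ => sum_congr rfl fun j _ => by
      simp only [hc, hg, grd, hinv]
      ring
  rw [hA, hess_symm hu.isOpen hL hy] at e
  have hne : c ≠ 0 := mul_ne_zero (mul_ne_zero (det_ne_zero hu y hy) (Real.exp_pos _).ne') hθ0.ne'
  have := (mul_eq_zero.1 e).resolve_left hne
  linarith

/-- The gradient of `|D log det|²`. -/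
lemma grd_qQ (hy : y ∈ W) :
    grd (fun z => grd (Three.logDet u) z ⬝ᵥ (hinv u z *ᵥ grd (Three.logDet u) z)) y =
      ((2 : ℝ) • hess (Three.logDet u) y - Cm u y (hinv u y *ᵥ grd (Three.logDet u) y)) *ᵥ
        (hinv u y *ᵥ grd (Three.logDet u) y) := by
  have hg := vsm_grd_logDet hu
  rw [grd_dotProduct hu.isOpen hy hg (VSm.mulVec hu.msm_hinv hg), vd_ginv hu hy hg,
    vd_grd_logDet, ← Matrix.mulVec_mulVec, ← Matrix.add_mulVec]
  congr 1
  rw [two_smul]
  abel

/-- The derivative of the equation. -/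
lemma trace_mpd_logDet (hy : y ∈ W) (b : Fin n) :
    (hinv u y * mpd b (hess (Three.logDet u)) y).trace =
      (hinv u y * mh u b y * hinv u y * hess (Three.logDet u) y).trace +
      ((n : ℝ) + 1) / ((n : ℝ) + 2) *
        (((2 : ℝ) • hess (Three.logDet u) y - Cm u y (hinv u y *ᵥ grd (Three.logDet u) y)) *ᵥ
          (hinv u y *ᵥ grd (Three.logDet u) y)) b := by
  have hW := hu.isOpen
  have hL := hu.sm_logDet
  have hg := vsm_grd_logDet hu
  have key := pd_congr_on hW hy (fun z hz => trace_logDet hu hz) b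
  rw [pd_trace hW (hu.msm_hinv.mul (msm_hess hW hL)) hy,
    mpd_mul hW hu.msm_hinv (msm_hess hW hL) hy, mpd_hinv' hu hy,
    pd_mul (differentiableAt_const _)
      ((sm_dotProduct hg (VSm.mulVec hu.msm_hinv hg)).differentiableAt hW hy),
    pd_const, zero_mul, zero_add, Matrix.trace_add, Matrix.neg_mul, Matrix.trace_neg] at key
  have e := congrFun (grd_qQ hu hy) b
  rw [grd] at e
  rw [e] at key
  linarith

/-- `∂_k ∂_b log det = tr (G ∂_k ∂_b D²u) - tr (G T_k G T_b)`. -/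
lemma hess_logDet_apply (hy : y ∈ W) (k b : Fin n) :
    hess (Three.logDet u) y k b = (hinv u y * mpd k (mh u b) y).trace -
      (hinv u y * mh u k y * hinv u y * mh u b y).trace := by
  show pd k (fun z => pd b (Three.logDet u) z) y = _
  rw [pd_congr_on hu.isOpen hy (fun z hz => pd_logDet hu hz b),
    pd_trace hu.isOpen (hu.msm_hinv.mul (msm_mh' hu b)) hy,
    mpd_mul hu.isOpen hu.msm_hinv (msm_mh' hu b) hy, mpd_hinv' hu hy, Matrix.trace_add,
    Matrix.neg_mul, Matrix.trace_neg]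
  ring

/-- The fourth derivatives are symmetric in the first two indices. -/
lemma mpd_mh_comm (hy : y ∈ W) (i k : Fin n) : mpd i (mh u k) y = mpd k (mh u i) y := by
  ext a b
  exact pd_comm hu.isOpen (hu.sm.hess hu.isOpen a b) hy i k

lemma mpd_mh_symm (hy : y ∈ W) (i k a b : Fin n) :
    mpd i (mh u k) y a b = mpd i (mh u a) y k b ∧ mpd i (mh u k) y a b = mpd i (mh u k) y b a := by
  constructor
  · exact pd_congr_on hu.isOpen hy
      (fun z hz => (mpd_hess_symm hu.isOpen hu.sm hz k a b).1) i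
  · exact pd_congr_on hu.isOpen hy
      (fun z hz => (mpd_hess_symm hu.isOpen hu.sm hz k a b).2) i

/-- The derivative of `D³u(A, ·, ·)`. -/
lemma mpd_Cm (hy : y ∈ W) {A : (Fin n → ℝ) → Fin n → ℝ} (hA : VSm W A) (i : Fin n) :
    mpd i (fun z => Cm u z (A z)) y =
      Cm u y (vd A y i) + ∑ k, A y k • mpd i (mh u k) y := by
  ext a b
  show pd i (fun z => (∑ k, A z k • mh u k z) a b) y = _
  simp only [Cm, Matrix.add_apply, Matrix.sum_apply, Matrix.smul_apply, smul_eq_mul]
  rw [pd_sum fun k _ => ((hA k).mul (msm_mh' hu k a b)).differentiableAt hu.isOpen hy,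
    ← sum_add_distrib]
  exact sum_congr rfl fun k _ =>
    pd_mul ((hA k).differentiableAt hu.isOpen hy) ((msm_mh' hu k a b).differentiableAt hu.isOpen hy)
      i

/-- The divergence of `D² log det · GF`. -/
lemma gdiv_hessField (hy : y ∈ W) (hF : VSm W F) :
    gdiv u (fun z => hess (Three.logDet u) z *ᵥ (hinv u z *ᵥ F z)) y =
      (hinv u y * Cm u y (hinv u y *ᵥ F y) * hinv u y * hess (Three.logDet u) y).trace +
      (hinv u y * hess (Three.logDet u) y * hinv u y *
        (vd F y - Cm u y (hinv u y *ᵥ F y))ᵀ).trace +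
      ((n : ℝ) + 1) / ((n : ℝ) + 2) * ((hinv u y *ᵥ F y) ⬝ᵥ
        (((2 : ℝ) • hess (Three.logDet u) y - Cm u y (hinv u y *ᵥ grd (Three.logDet u) y)) *ᵥ
          (hinv u y *ᵥ grd (Three.logDet u) y))) := by
  have hW := hu.isOpen
  have hL := hu.sm_logDet
  rw [gdiv_mulVec hW hy (msm_hess hW hL) (VSm.mulVec hu.msm_hinv hF), vd_ginv_transpose hu hy hF]
  simp only [← mul_assoc]
  have hT : ∀ i j b, mpd i (hess (Three.logDet u)) y j b =
      mpd b (hess (Three.logDet u)) y j i := fun i j b => by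
    obtain ⟨h1, h2⟩ := mpd_hess_symm hW hL hy i j b
    obtain ⟨h3, h4⟩ := mpd_hess_symm hW hL hy b j i
    rw [h2, (mpd_hess_symm hW hL hy i b j).1, h4]
  have e2 : ∀ b, ∑ i, ∑ j, hinv u y i j * mpd i (hess (Three.logDet u)) y j b =
      (hinv u y * mh u b y * hinv u y * hess (Three.logDet u) y).trace +
      ((n : ℝ) + 1) / ((n : ℝ) + 2) *
        (((2 : ℝ) • hess (Three.logDet u) y - Cm u y (hinv u y *ᵥ grd (Three.logDet u) y)) *ᵥ
          (hinv u y *ᵥ grd (Three.logDet u) y)) b := fun b => by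
    rw [← trace_mpd_logDet hu hy b]
    simp only [Matrix.trace, Matrix.diag, Matrix.mul_apply]
    exact sum_congr rfl fun i _ => sum_congr rfl fun j _ => by rw [hT i j b]
  rw [funext e2]
  generalize ((2 : ℝ) • hess (Three.logDet u) y - Cm u y (hinv u y *ᵥ grd (Three.logDet u) y)) *ᵥ
    (hinv u y *ᵥ grd (Three.logDet u) y) = R
  generalize hinv u y *ᵥ F y = U
  have e3 : (hinv u y * Cm u y U * hinv u y * hess (Three.logDet u) y).trace =
      ∑ b, U b * (hinv u y * mh u b y * hinv u y * hess (Three.logDet u) y).trace := by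
    simp only [Cm, Matrix.mul_sum, Matrix.sum_mul, Matrix.mul_smul, Matrix.smul_mul,
      Matrix.trace_sum, Matrix.trace_smul, smul_eq_mul]
  rw [e3]
  simp only [dotProduct, add_mul, sum_add_distrib, mul_sum]
  rw [add_right_comm]
  refine congrArg₂ (· + ·) (congrArg₂ (· + ·) ?_ rfl) ?_
  · exact sum_congr rfl fun b _ => mul_comm _ _
  · exact sum_congr rfl fun b _ => by ring

/-- The divergence of `D³u(GF, GK, ·)`. -/
lemma gdiv_cubicField (hy : y ∈ W) (hF : VSm W F) (hK : VSm W K) :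
    gdiv u (fun z => Cm u z (hinv u z *ᵥ F z) *ᵥ (hinv u z *ᵥ K z)) y =
      (hinv u y *ᵥ F y) ⬝ᵥ (hess (Three.logDet u) y *ᵥ (hinv u y *ᵥ K y)) +
      (hinv u y * Cm u y (hinv u y *ᵥ F y) * hinv u y * Cm u y (hinv u y *ᵥ K y)).trace +
      (hinv u y * Cm u y (hinv u y *ᵥ F y) * hinv u y *
        (vd K y - Cm u y (hinv u y *ᵥ K y))ᵀ).trace +
      (hinv u y * Cm u y (hinv u y *ᵥ K y) * hinv u y *
        (vd F y - Cm u y (hinv u y *ᵥ F y))ᵀ).trace := by
  have hW := hu.isOpen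
  have hA := VSm.mulVec hu.msm_hinv hF
  have hB := VSm.mulVec hu.msm_hinv hK
  rw [gdiv_mulVec hW hy (msm_Cm hu hA) hB, vd_ginv_transpose hu hy hK]
  have e1 : ∀ i j b, mpd i (fun z => Cm u z (hinv u z *ᵥ F z)) y j b =
      Cm u y (vd (fun z => hinv u z *ᵥ F z) y i) j b +
        ∑ k, (hinv u y *ᵥ F y) k * mpd k (mh u b) y j i := fun i j b => by
    rw [mpd_Cm hu hy hA]
    simp only [Matrix.add_apply, Matrix.sum_apply, Matrix.smul_apply, smul_eq_mul]
    congr 1
    refine sum_congr rfl fun k _ => ?_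
    congr 1
    rw [mpd_mh_comm hu hy i k, (mpd_mh_symm hu hy k i j b).2, (mpd_mh_symm hu hy k i b j).1,
      (mpd_mh_symm hu hy k b i j).2]
  have e2 : (hinv u y *ᵥ F y) ⬝ᵥ (hess (Three.logDet u) y *ᵥ (hinv u y *ᵥ K y)) +
      (hinv u y * Cm u y (hinv u y *ᵥ F y) * hinv u y * Cm u y (hinv u y *ᵥ K y)).trace =
      ∑ k, ∑ b, (hinv u y *ᵥ F y) k * (hinv u y *ᵥ K y) b *
        (hinv u y * mpd k (mh u b) y).trace := by
    generalize hinv u y *ᵥ F y = A
    generalize hinv u y *ᵥ K y = B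
    have c1 : (hinv u y * Cm u y A * hinv u y * Cm u y B).trace =
        ∑ k, ∑ b, A k * B b * (hinv u y * mh u k y * hinv u y * mh u b y).trace := by
      simp only [Cm, Matrix.sum_mul, Matrix.mul_smul, Matrix.smul_mul,
        Matrix.trace_sum, Matrix.trace_smul, smul_eq_mul, mul_sum]
      rw [sum_comm]
      exact sum_congr rfl fun k _ => sum_congr rfl fun b _ => by ring
    rw [c1]
    simp only [dotProduct, Matrix.mulVec, mul_sum, ← sum_add_distrib]
    exact sum_congr rfl fun k _ => sum_congr rfl fun b _ => by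
      rw [hess_logDet_apply hu hy k b]
      ring
  have e3 : (fun b => ∑ i, ∑ j, hinv u y i j * mpd i (fun z => Cm u z (hinv u z *ᵥ F z)) y j b) ⬝ᵥ
      (hinv u y *ᵥ K y) =
      (∑ k, ∑ b, (hinv u y *ᵥ F y) k * (hinv u y *ᵥ K y) b *
        (hinv u y * mpd k (mh u b) y).trace) +
      (hinv u y * (Cm u y (hinv u y *ᵥ K y) * (vd (fun z => hinv u z *ᵥ F z) y)ᵀ)).trace := by
    simp only [e1]
    generalize vd (fun z => hinv u z *ᵥ F z) y = V
    generalize hinv u y *ᵥ F y = A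
    generalize hinv u y *ᵥ K y = B
    have c1 : ∑ b, (∑ i, ∑ j, hinv u y i j * Cm u y (V i) j b) * B b =
        (hinv u y * (Cm u y B * Vᵀ)).trace := by
      have hc : ∀ i j, ∑ b, Cm u y (V i) j b * B b = ∑ k, Cm u y B j k * V i k := fun i j =>
        congrFun (Cm_comm hu hy (V i) B) j
      simp only [Matrix.trace, Matrix.diag, Matrix.mul_apply, Matrix.transpose_apply, ← hc, sum_mul]
      rw [sum_comm]
      refine sum_congr rfl fun i _ => ?_
      rw [sum_comm]
      simp only [mul_sum, mul_assoc]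
    have c2 : ∑ b, (∑ i, ∑ j, hinv u y i j * ∑ k, A k * mpd k (mh u b) y j i) * B b =
        ∑ k, ∑ b, A k * B b * (hinv u y * mpd k (mh u b) y).trace := by
      simp only [Matrix.trace, Matrix.diag, Matrix.mul_apply, sum_mul, mul_sum]
      refine Eq.trans ?_ sum_comm
      refine sum_congr rfl fun b _ => ?_
      refine Eq.trans (sum_congr rfl fun i _ => sum_comm) (Eq.trans sum_comm ?_)
      exact sum_congr rfl fun k _ => sum_congr rfl fun i _ => sum_congr rfl fun j _ => by ring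
    simp only [dotProduct, mul_add, sum_add_distrib, add_mul]
    rw [c1, c2, add_comm]
  rw [e3, ← e2, vd_ginv_transpose hu hy hF]
  simp only [mul_assoc]
  ring

end

end Vale.Agent.P252.General
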