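import Mathlib
import Vale.Agent.P252.Defs

/-!
# Real powers of a nonnegative function times a function vanishing on its zero set

`Flat W ρ s f`: near every zero of `ρ` one has `|f| ≤ C ρ^s` and `‖Df‖ ≤ C ρ^(max (s - 1/2) 0)`.
For a nonnegative `C²` function `ρ` and `e + s > 1/2` the product `ρ^e f` is then `C¹`, with zero
derivative on the zero set of `ρ`.
-/

namespace Vale.Agent.P252.General

open Filter Metric
open scoped Topology NNReal

noncomputable section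

variable {E : Type*} [NormedAddCommGroup E] [NormedSpace ℝ E]

/-- `f` vanishes to order `ρ^s` at the zeros of `ρ`, its derivative to half an order less. -/
def Flat (W : Set E) (ρ : E → ℝ) (s : ℝ) (f : E → ℝ) : Prop :=
  ContDiffOn ℝ 1 f W ∧ ∀ x ∈ W, ρ x = 0 → ∃ C, 0 ≤ C ∧ ∀ᶠ y in 𝓝 x,
    |f y| ≤ C * ρ y ^ s ∧ ‖fderiv ℝ f y‖ ≤ C * ρ y ^ max (s - 1 / 2) 0

variable {W : Set E} {ρ f g : E → ℝ} {s t e : ℝ}

lemma rho_local (hW : IsOpen W) (hρ : ContDiffOn ℝ 2 ρ W) (h0 : ∀ y ∈ W, 0 ≤ ρ y)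
    {x : E} (hx : x ∈ W) (hx0 : ρ x = 0) :
    ∃ L, 0 ≤ L ∧ ∀ᶠ y in 𝓝 x,
      ‖fderiv ℝ ρ y‖ ≤ L * Real.sqrt (ρ y) ∧ ρ y ≤ L * ‖y - x‖ ^ 2 ∧ ρ y ≤ 1 := by
  have hD : ContDiffAt ℝ 1 (fderiv ℝ ρ) x :=
    (hρ.contDiffAt (hW.mem_nhds hx)).fderiv_right (by norm_num)
  obtain ⟨K, t, ht, hK⟩ := hD.exists_lipschitzOnWith
  obtain ⟨r, hr, hball⟩ := Metric.mem_nhds_iff.1 (inter_mem ht (hW.mem_nhds hx))
  have hdiff : ∀ y ∈ ball x r, DifferentiableAt ℝ ρ y := fun y hy =>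
    ((hρ.contDiffAt (hW.mem_nhds (hball hy).2)).differentiableAt (by norm_num))
  have htay : ∀ y ∈ ball x r, ∀ z ∈ ball x r,
      |ρ z - ρ y - fderiv ℝ ρ y (z - y)| ≤ K * ‖z - y‖ * ‖z - y‖ := by
    intro y hy z hz
    have hseg : segment ℝ y z ⊆ ball x r := (convex_ball x r).segment_subset hy hz
    refine (convex_segment y z).norm_image_sub_le_of_norm_fderiv_le'
      (fun w hw => hdiff w (hseg hw)) (fun w hw => ?_) (left_mem_segment ℝ y z)
      (right_mem_segment ℝ y z)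
    have hwy : w ∈ closedBall y ‖z - y‖ :=
      (convex_closedBall y ‖z - y‖).segment_subset (mem_closedBall_self (norm_nonneg _))
        (by rw [mem_closedBall, dist_eq_norm]) hw
    rw [mem_closedBall, dist_eq_norm] at hwy
    exact (hK.norm_sub_le (hball (hseg hw)).1 (hball hy).1).trans
      (mul_le_mul_of_nonneg_left hwy K.coe_nonneg)
  have hmin : ∀ y ∈ ball x r, ρ y = 0 → fderiv ℝ ρ y = 0 := fun y hy h =>
    IsLocalMin.fderiv_eq_zero <| by
      filter_upwards [hW.mem_nhds (hball hy).2] with z hz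
      rw [h]
      exact h0 z hz
  have hquad : ∀ y ∈ ball x r, ρ y ≤ K * ‖y - x‖ ^ 2 := by
    intro y hy
    have h := (abs_le.1 (htay x (mem_ball_self hr) y hy)).2
    rw [hmin x (mem_ball_self hr) hx0, hx0, zero_apply] at h
    rw [sq]
    linarith
  refine ⟨1 + K, by positivity, ?_⟩
  have hcont : ContinuousAt ρ x := (hρ.contDiffAt (hW.mem_nhds hx)).continuousAt
  have hsqrt : ∀ᶠ y in 𝓝 x, Real.sqrt (ρ y) < r / 2 := by
    have h := (Real.continuous_sqrt.continuousAt.comp hcont).eventually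
      (eventually_lt_nhds (show Real.sqrt (ρ x) < r / 2 by rw [hx0, Real.sqrt_zero]; linarith))
    exact h
  have hone : ∀ᶠ y in 𝓝 x, ρ y ≤ 1 :=
    hcont.eventually (eventually_le_nhds (show ρ x < 1 by rw [hx0]; norm_num))
  filter_upwards [hsqrt, hone, ball_mem_nhds x (half_pos hr)] with y hy1 hy2 hy
  have hyr : y ∈ ball x r := ball_subset_ball (by linarith) hy
  refine ⟨?_, (hquad y hyr).trans ?_, hy2⟩
  · rcases (h0 y (hball hyr).2).eq_or_lt with h | h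
    · rw [hmin y hyr h.symm, norm_zero]
      positivity
    · set τ := Real.sqrt (ρ y) with hτ
      have hτ0 : 0 < τ := Real.sqrt_pos.2 h
      have hττ : τ * τ = ρ y := Real.mul_self_sqrt h.le
      have key : ∀ v : E, ‖v‖ = 1 → fderiv ℝ ρ y v ≤ (1 + K) * τ := by
        intro v hv
        have hz : y - τ • v ∈ ball x r := by
          rw [mem_ball, dist_eq_norm]
          calc ‖y - τ • v - x‖ ≤ ‖y - x‖ + ‖τ • v‖ := by
                rw [sub_right_comm]; exact norm_sub_le _ _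
            _ < r / 2 + r / 2 := by
                rw [norm_smul, hv, mul_one, Real.norm_eq_abs, abs_of_pos hτ0]
                rw [mem_ball, dist_eq_norm] at hy
                linarith
            _ = r := by ring
        have hb := (abs_le.1 (htay y hyr _ hz)).2
        rw [sub_sub_cancel_left, map_neg, map_smul, smul_eq_mul, norm_neg, norm_smul, hv, mul_one,
          Real.norm_eq_abs, abs_of_pos hτ0] at hb
        have hnn := h0 _ (hball hz).2
        refine le_of_mul_le_mul_left ?_ hτ0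
        nlinarith
      refine ContinuousLinearMap.opNorm_le_of_unit_norm (by positivity) fun v hv => ?_
      rw [Real.norm_eq_abs, abs_le]
      have hneg := key (-v) (by rw [norm_neg, hv])
      rw [map_neg] at hneg
      exact ⟨by linarith, key v hv⟩
  · nlinarith [sq_nonneg ‖y - x‖]

/-- A `C¹` function is flat of order zero. -/
lemma Flat.of_contDiffOn (hW : IsOpen W) (hf : ContDiffOn ℝ 1 f W) : Flat W ρ 0 f := by
  refine ⟨hf, fun x hx _ => ⟨max (|f x| + 1) (‖fderiv ℝ f x‖ + 1), by positivity, ?_⟩⟩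
  have h1 := (hf.contDiffAt (hW.mem_nhds hx)).continuousAt.abs.eventually
    (eventually_lt_nhds (lt_add_one |f x|))
  have h2 := ((hf.continuousOn_fderiv_of_isOpen hW le_rfl).continuousAt
    (hW.mem_nhds hx)).norm.eventually (eventually_lt_nhds (lt_add_one ‖fderiv ℝ f x‖))
  filter_upwards [h1, h2] with y hy1 hy2
  rw [max_eq_right (by norm_num : (0 : ℝ) - 1 / 2 ≤ 0), Real.rpow_zero, mul_one]
  exact ⟨hy1.le.trans (le_max_left _ _), hy2.le.trans (le_max_right _ _)⟩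

lemma flat_const (hW : IsOpen W) (c : ℝ) : Flat W ρ 0 fun _ => c :=
  Flat.of_contDiffOn hW contDiffOn_const

/-- A `C¹` function with `f² ≤ C ρ` near the zeros is flat of order one half. -/
lemma Flat.of_sq_le (hW : IsOpen W) (h0 : ∀ y ∈ W, 0 ≤ ρ y) (hf : ContDiffOn ℝ 1 f W)
    (hb : ∀ x ∈ W, ρ x = 0 → ∃ C, ∀ᶠ y in 𝓝 x, f y ^ 2 ≤ C * ρ y) :
    Flat W ρ (1 / 2) f := by
  refine ⟨hf, fun x hx hx0 => ?_⟩
  obtain ⟨C, hC⟩ := hb x hx hx0
  refine ⟨max (Real.sqrt (max C 0)) (‖fderiv ℝ f x‖ + 1), by positivity, ?_⟩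
  have h2 := ((hf.continuousOn_fderiv_of_isOpen hW le_rfl).continuousAt
    (hW.mem_nhds hx)).norm.eventually (eventually_lt_nhds (lt_add_one ‖fderiv ℝ f x‖))
  filter_upwards [hC, h2, hW.mem_nhds hx] with y hy hy2 hyW
  rw [max_eq_right (by norm_num : (1 / 2 : ℝ) - 1 / 2 ≤ 0), Real.rpow_zero, mul_one,
    ← Real.sqrt_eq_rpow]
  refine ⟨le_trans ?_ (mul_le_mul_of_nonneg_right (le_max_left _ _) (Real.sqrt_nonneg _)),
    hy2.le.trans (le_max_right _ _)⟩
  rw [← Real.sqrt_mul (le_max_right C 0), ← Real.sqrt_sq_eq_abs]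
  exact Real.sqrt_le_sqrt (hy.trans (mul_le_mul_of_nonneg_right (le_max_left _ _) (h0 y hyW)))

/-- `ρ` itself is flat of order one. -/
lemma flat_self (hW : IsOpen W) (hρ : ContDiffOn ℝ 2 ρ W) (h0 : ∀ y ∈ W, 0 ≤ ρ y) :
    Flat W ρ 1 ρ := by
  refine ⟨hρ.of_le (by norm_num), fun x hx hx0 => ?_⟩
  obtain ⟨L, hL, h⟩ := rho_local hW hρ h0 hx hx0
  refine ⟨L + 1, by positivity, ?_⟩
  filter_upwards [h, hW.mem_nhds hx] with y ⟨hy, _, _⟩ hyW
  rw [Real.rpow_one, max_eq_left (by norm_num : (0 : ℝ) ≤ 1 - 1 / 2),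
    show (1 : ℝ) - 1 / 2 = 1 / 2 by norm_num, ← Real.sqrt_eq_rpow, abs_of_nonneg (h0 y hyW)]
  exact ⟨by nlinarith [h0 y hyW], by nlinarith [Real.sqrt_nonneg (ρ y)]⟩

lemma Flat.mono (hW : IsOpen W) (hρ : ContDiffOn ℝ 2 ρ W) (h0 : ∀ y ∈ W, 0 ≤ ρ y)
    (hf : Flat W ρ s f) (ht : 0 ≤ t) (hts : t ≤ s) : Flat W ρ t f := by
  refine ⟨hf.1, fun x hx hx0 => ?_⟩
  obtain ⟨C, hC, h⟩ := hf.2 x hx hx0
  obtain ⟨L, -, hL⟩ := rho_local hW hρ h0 hx hx0
  refine ⟨C, hC, ?_⟩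
  filter_upwards [h, hL, hW.mem_nhds hx] with y hy ⟨_, _, hy1⟩ hyW
  exact ⟨hy.1.trans (mul_le_mul_of_nonneg_left
      (Real.rpow_le_rpow_of_exponent_ge' (h0 y hyW) hy1 ht hts) hC),
    hy.2.trans (mul_le_mul_of_nonneg_left
      (Real.rpow_le_rpow_of_exponent_ge' (h0 y hyW) hy1 (le_max_right _ _)
        (max_le_max (by linarith) le_rfl)) hC)⟩

lemma Flat.add (hW : IsOpen W) (hf : Flat W ρ s f) (hg : Flat W ρ s g) :
    Flat W ρ s fun y => f y + g y := by
  refine ⟨hf.1.add hg.1, fun x hx hx0 => ?_⟩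
  obtain ⟨C, hC, h⟩ := hf.2 x hx hx0
  obtain ⟨D, hD, h'⟩ := hg.2 x hx hx0
  refine ⟨C + D, by positivity, ?_⟩
  filter_upwards [h, h', hW.mem_nhds hx] with y hy hy' hyW
  have e1 := (hf.1.contDiffAt (hW.mem_nhds hyW)).differentiableAt (by norm_num)
  have e2 := (hg.1.contDiffAt (hW.mem_nhds hyW)).differentiableAt (by norm_num)
  refine ⟨(abs_add_le _ _).trans (by linarith [hy.1, hy'.1]), ?_⟩
  rw [fderiv_fun_add e1 e2]
  exact (norm_add_le _ _).trans (by linarith [hy.2, hy'.2])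

lemma Flat.mul (hW : IsOpen W) (hρ : ContDiffOn ℝ 2 ρ W) (h0 : ∀ y ∈ W, 0 ≤ ρ y)
    (hf : Flat W ρ s f) (hg : Flat W ρ t g) (hs : 0 ≤ s) (ht : 0 ≤ t) :
    Flat W ρ (s + t) fun y => f y * g y := by
  refine ⟨hf.1.mul hg.1, fun x hx hx0 => ?_⟩
  obtain ⟨C, hC, h⟩ := hf.2 x hx hx0
  obtain ⟨D, hD, h'⟩ := hg.2 x hx hx0
  obtain ⟨L, -, hL⟩ := rho_local hW hρ h0 hx hx0
  refine ⟨2 * (C * D), by positivity, ?_⟩
  filter_upwards [h, h', hL, hW.mem_nhds hx] with y hy hy' ⟨_, _, hy1⟩ hyW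
  have hr := h0 y hyW
  have e1 := (hf.1.contDiffAt (hW.mem_nhds hyW)).differentiableAt (by norm_num)
  have e2 := (hg.1.contDiffAt (hW.mem_nhds hyW)).differentiableAt (by norm_num)
  have hCD : (0 : ℝ) ≤ C * D := by positivity
  constructor
  · rw [abs_mul]
    calc |f y| * |g y| ≤ (C * ρ y ^ s) * (D * ρ y ^ t) :=
          mul_le_mul hy.1 hy'.1 (abs_nonneg _) (by positivity)
      _ = C * D * ρ y ^ (s + t) := by rw [Real.rpow_add_of_nonneg hr hs ht]; ring
      _ ≤ 2 * (C * D) * ρ y ^ (s + t) :=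
          mul_le_mul_of_nonneg_right (by linarith) (Real.rpow_nonneg hr _)
  · have key : ∀ a b : ℝ, 0 ≤ a → 0 ≤ b → ρ y ^ a * ρ y ^ max (b - 1 / 2) 0 ≤
        ρ y ^ max (a + b - 1 / 2) 0 := by
      intro a b ha hb
      have hle : max (a + b - 1 / 2) 0 ≤ a + max (b - 1 / 2) 0 :=
        max_le (by linarith [le_max_left (b - 1 / 2) 0]) (by positivity)
      rw [← Real.rpow_add_of_nonneg hr ha (le_max_right _ _)]
      exact Real.rpow_le_rpow_of_exponent_ge' hr hy1 (le_max_right _ _) hle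
    rw [fderiv_fun_mul e1 e2]
    refine (norm_add_le _ _).trans ?_
    rw [norm_smul, norm_smul, Real.norm_eq_abs, Real.norm_eq_abs]
    calc |f y| * ‖fderiv ℝ g y‖ + |g y| * ‖fderiv ℝ f y‖
        ≤ (C * ρ y ^ s) * (D * ρ y ^ max (t - 1 / 2) 0) +
          (D * ρ y ^ t) * (C * ρ y ^ max (s - 1 / 2) 0) :=
          add_le_add (mul_le_mul hy.1 hy'.2 (norm_nonneg _) (by positivity))
            (mul_le_mul hy'.1 hy.2 (norm_nonneg _) (by positivity))
      _ = C * D * (ρ y ^ s * ρ y ^ max (t - 1 / 2) 0) +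
          C * D * (ρ y ^ t * ρ y ^ max (s - 1 / 2) 0) := by ring
      _ ≤ C * D * ρ y ^ max (s + t - 1 / 2) 0 + C * D * ρ y ^ max (s + t - 1 / 2) 0 := by
          gcongr ?_ + ?_
          · exact mul_le_mul_of_nonneg_left (key s t hs ht) hCD
          · exact mul_le_mul_of_nonneg_left (by rw [add_comm s t]; exact key t s ht hs) hCD
      _ = 2 * (C * D) * ρ y ^ max (s + t - 1 / 2) 0 := by ring

lemma Flat.const_mul (hW : IsOpen W) (hf : Flat W ρ s f) (c : ℝ) :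
    Flat W ρ s fun y => c * f y := by
  refine ⟨contDiffOn_const.mul hf.1, fun x hx hx0 => ?_⟩
  obtain ⟨C, hC, h⟩ := hf.2 x hx hx0
  refine ⟨|c| * C, by positivity, ?_⟩
  filter_upwards [h, hW.mem_nhds hx] with y hy hyW
  have e1 := (hf.1.contDiffAt (hW.mem_nhds hyW)).differentiableAt (by norm_num)
  rw [fderiv_const_mul e1, norm_smul, abs_mul, Real.norm_eq_abs, mul_assoc, mul_assoc]
  exact ⟨mul_le_mul_of_nonneg_left hy.1 (abs_nonneg _),
    mul_le_mul_of_nonneg_left hy.2 (abs_nonneg _)⟩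

lemma Flat.neg (hW : IsOpen W) (hf : Flat W ρ s f) : Flat W ρ s fun y => -f y := by
  have h := hf.const_mul hW (-1)
  simpa only [neg_one_mul] using h

lemma Flat.sub (hW : IsOpen W) (hf : Flat W ρ s f) (hg : Flat W ρ s g) :
    Flat W ρ s fun y => f y - g y := by
  simpa only [sub_eq_add_neg] using hf.add hW (hg.neg hW)

lemma Flat.pow (hW : IsOpen W) (hρ : ContDiffOn ℝ 2 ρ W) (h0 : ∀ y ∈ W, 0 ≤ ρ y)
    (hf : Flat W ρ s f) (hs : 0 ≤ s) (k : ℕ) : Flat W ρ (k * s) fun y => f y ^ k := by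
  induction k with
  | zero => simpa using flat_const (ρ := ρ) hW (1 : ℝ)
  | succ k ih =>
    have h := ih.mul hW hρ h0 hf (by positivity) hs
    push_cast
    rw [add_mul, one_mul]
    simpa only [pow_succ] using h

lemma flat_sum (hW : IsOpen W) {ι : Type*} (I : Finset ι) {F : ι → E → ℝ}
    (hF : ∀ i ∈ I, Flat W ρ s (F i)) :
    Flat W ρ s fun y => ∑ i ∈ I, F i y := by
  classical
  induction I using Finset.induction_on with
  | empty =>
    refine ⟨by simpa using contDiffOn_const, fun x hx _ => ⟨0, le_rfl, ?_⟩⟩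
    filter_upwards [hW.mem_nhds hx] with y hy
    simp
  | insert a I ha ih =>
    simp only [Finset.sum_insert ha]
    exact (hF a (Finset.mem_insert_self a I)).add hW
      (ih fun i hi => hF i (Finset.mem_insert_of_mem hi))

lemma Flat.eq_zero_of_pos (hf : Flat W ρ s f) (hs : 0 < s) {x : E} (hx : x ∈ W) (hx0 : ρ x = 0) :
    f x = 0 := by
  obtain ⟨C, -, h⟩ := hf.2 x hx hx0
  have := h.self_of_nhds.1
  rw [hx0, Real.zero_rpow hs.ne', mul_zero] at this
  exact abs_nonpos_iff.1 this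

lemma Flat.rpow_mul_eq_zero (hf : Flat W ρ s f) (hes : 1 / 2 < e + s) {x : E}
    (hx : x ∈ W) (hx0 : ρ x = 0) : ρ x ^ e * f x = 0 := by
  rcases eq_or_ne e 0 with rfl | he
  · rw [hf.eq_zero_of_pos (by linarith) hx hx0, mul_zero]
  · rw [hx0, Real.zero_rpow he, zero_mul]

/-- At a zero of `ρ` the product `ρ^e f` has derivative zero. -/
theorem Flat.hasFDerivAt_rpow_mul_zero (hW : IsOpen W) (hρ : ContDiffOn ℝ 2 ρ W)
    (h0 : ∀ y ∈ W, 0 ≤ ρ y) (hf : Flat W ρ s f) (hes : 1 / 2 < e + s) {x : E}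
    (hx : x ∈ W) (hx0 : ρ x = 0) :
    HasFDerivAt (fun y => ρ y ^ e * f y) (0 : E →L[ℝ] ℝ) x := by
  obtain ⟨C, hC, h⟩ := hf.2 x hx hx0
  obtain ⟨L, hL, hloc⟩ := rho_local hW hρ h0 hx hx0
  rw [hasFDerivAt_iff_tendsto]
  have hb : ∀ᶠ y in 𝓝 x, ‖y - x‖⁻¹ *
      ‖ρ y ^ e * f y - ρ x ^ e * f x - (0 : E →L[ℝ] ℝ) (y - x)‖ ≤
      C * L ^ (e + s) * ‖y - x‖ ^ (2 * (e + s) - 1) := by
    filter_upwards [h, hloc, hW.mem_nhds hx] with y ⟨hy, _⟩ ⟨_, hy2, _⟩ hyW
    have hr := h0 y hyW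
    rw [hf.rpow_mul_eq_zero hes hx hx0, sub_zero, zero_apply, sub_zero,
      Real.norm_eq_abs]
    rcases eq_or_ne (y - x) 0 with hyx | hyx
    · rw [hyx, norm_zero, inv_zero, zero_mul]
      exact mul_nonneg (by positivity) (Real.rpow_nonneg le_rfl _)
    have hn : 0 < ‖y - x‖ := norm_pos_iff.2 hyx
    have hg : |ρ y ^ e * f y| ≤ C * ρ y ^ (e + s) := by
      rcases hr.eq_or_lt with h' | h'
      · rw [hf.rpow_mul_eq_zero hes hyW h'.symm, abs_zero]
        positivity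
      · rw [abs_mul, abs_of_nonneg (Real.rpow_nonneg hr e), Real.rpow_add h']
        calc ρ y ^ e * |f y| ≤ ρ y ^ e * (C * ρ y ^ s) := by gcongr
          _ = C * (ρ y ^ e * ρ y ^ s) := by ring
    have hq : ρ y ^ (e + s) ≤ L ^ (e + s) * ‖y - x‖ ^ (2 * (e + s)) := by
      rw [Real.rpow_mul hn.le, show ‖y - x‖ ^ (2 : ℝ) = ‖y - x‖ ^ 2 from Real.rpow_two _,
        ← Real.mul_rpow hL (sq_nonneg _)]
      exact Real.rpow_le_rpow hr hy2 (by linarith)
    rw [inv_mul_le_iff₀ hn]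
    calc |ρ y ^ e * f y| ≤ C * (L ^ (e + s) * ‖y - x‖ ^ (2 * (e + s))) :=
          hg.trans (by gcongr)
      _ = ‖y - x‖ * (C * L ^ (e + s) * ‖y - x‖ ^ (2 * (e + s) - 1)) := by
          rw [Real.rpow_sub_one hn.ne']
          field_simp
  refine squeeze_zero' (Eventually.of_forall fun y => by positivity) hb ?_
  have hc : ContinuousAt (fun y : E => C * L ^ (e + s) * ‖y - x‖ ^ (2 * (e + s) - 1)) x :=
    continuousAt_const.mul ((continuous_id.sub continuous_const).norm.continuousAt.rpow_const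
      (Or.inr (by linarith)))
  have := hc.tendsto
  rwa [sub_self, norm_zero, Real.zero_rpow (by linarith : 2 * (e + s) - 1 ≠ 0), mul_zero] at this

/-- `ρ^e f` is `C¹`. -/
theorem Flat.rpow_mul (hW : IsOpen W) (hρ : ContDiffOn ℝ 2 ρ W) (h0 : ∀ y ∈ W, 0 ≤ ρ y)
    (hf : Flat W ρ s f) (hes : 1 / 2 < e + s) :
    ContDiffOn ℝ 1 (fun y => ρ y ^ e * f y) W := by
  have hpos : ∀ y ∈ W, ρ y ≠ 0 → ContDiffAt ℝ 1 (fun z => ρ z ^ e * f z) y := fun y hy hne =>
    (((hρ.contDiffAt (hW.mem_nhds hy)).of_le (by norm_num)).rpow_const_of_ne hne).mul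
      (hf.1.contDiffAt (hW.mem_nhds hy))
  rw [← zero_add (1 : WithTop ℕ∞), contDiffOn_succ_iff_fderiv_of_isOpen hW,
    contDiffOn_zero]
  refine ⟨fun x hx => ?_, by simp, fun x hx => ?_⟩
  · by_cases hx0 : ρ x = 0
    · exact (hf.hasFDerivAt_rpow_mul_zero hW hρ h0 hes hx hx0).differentiableAt
        |>.differentiableWithinAt
    · exact ((hpos x hx hx0).differentiableAt (by norm_num)).differentiableWithinAt
  refine ContinuousAt.continuousWithinAt ?_
  by_cases hx0 : ρ x = 0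
  swap
  · exact (hpos x hx hx0).continuousAt_fderiv (by norm_num)
  have hzero := (hf.hasFDerivAt_rpow_mul_zero hW hρ h0 hes hx hx0).fderiv
  rw [ContinuousAt, hzero]
  obtain ⟨C, hC, h⟩ := hf.2 x hx hx0
  obtain ⟨L, hL, hloc⟩ := rho_local hW hρ h0 hx hx0
  refine squeeze_zero_norm' (a := fun y => (|e| * C * L + C) * ρ y ^ (e + s - 1 / 2)) ?_ ?_
  · filter_upwards [h, hloc, hW.mem_nhds hx] with y ⟨hy, hy'⟩ ⟨hyD, _, hy1⟩ hyW
    have hr := h0 y hyW
    rcases hr.eq_or_lt with h' | h'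
    · rw [(hf.hasFDerivAt_rpow_mul_zero hW hρ h0 hes hyW h'.symm).fderiv, norm_zero]
      positivity
    have d1 := ((hρ.contDiffAt (hW.mem_nhds hyW)).differentiableAt
      (by norm_num)).hasFDerivAt.rpow_const (p := e) (Or.inl h'.ne')
    have d2 := ((hf.1.contDiffAt (hW.mem_nhds hyW)).differentiableAt (by norm_num)).hasFDerivAt
    rw [show fderiv ℝ (fun y => ρ y ^ e * f y) y = _ from (d1.mul d2).fderiv]
    refine (norm_add_le _ _).trans ?_
    rw [norm_smul, norm_smul, norm_smul, Real.norm_eq_abs, Real.norm_eq_abs, Real.norm_eq_abs,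
      abs_mul, abs_of_nonneg (Real.rpow_nonneg hr e),
      abs_of_nonneg (Real.rpow_nonneg hr (e - 1)), add_mul, add_comm (|e| * C * L * _)]
    refine add_le_add ?_ ?_
    · calc ρ y ^ e * ‖fderiv ℝ f y‖ ≤ ρ y ^ e * (C * ρ y ^ (s - 1 / 2)) := by
            refine mul_le_mul_of_nonneg_left (hy'.trans (mul_le_mul_of_nonneg_left ?_ hC))
              (Real.rpow_nonneg hr _)
            exact Real.rpow_le_rpow_of_exponent_ge h' hy1 (le_max_left _ _)
        _ = C * ρ y ^ (e + s - 1 / 2) := by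
            rw [show e + s - 1 / 2 = e + (s - 1 / 2) by ring, Real.rpow_add h']
            ring
    · calc |f y| * (|e| * ρ y ^ (e - 1) * ‖fderiv ℝ ρ y‖)
          ≤ (C * ρ y ^ s) * (|e| * ρ y ^ (e - 1) * (L * Real.sqrt (ρ y))) := by gcongr
        _ = |e| * C * L * ρ y ^ (e + s - 1 / 2) := by
            rw [Real.sqrt_eq_rpow, show e + s - 1 / 2 = s + (e - 1) + 1 / 2 by ring,
              Real.rpow_add h', Real.rpow_add h']
            ring
  · have hc : ContinuousAt (fun y => (|e| * C * L + C) * ρ y ^ (e + s - 1 / 2)) x :=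
      continuousAt_const.mul ((hρ.contDiffAt (hW.mem_nhds hx)).continuousAt.rpow_const
        (Or.inr (by linarith)))
    have := hc.tendsto
    rwa [hx0, Real.zero_rpow (by linarith : e + s - 1 / 2 ≠ 0), mul_zero] at this

/-- The partial derivatives of `ρ^e f` vanish at the zeros of `ρ`. -/
theorem Flat.pd_rpow_mul_zero {n : ℕ} {W : Set (Fin n → ℝ)} {ρ f : (Fin n → ℝ) → ℝ} {s e : ℝ}
    (hW : IsOpen W) (hρ : ContDiffOn ℝ 2 ρ W) (h0 : ∀ y ∈ W, 0 ≤ ρ y) (hf : Flat W ρ s f)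
    (hes : 1 / 2 < e + s) {x : Fin n → ℝ} (hx : x ∈ W) (hx0 : ρ x = 0) (i : Fin n) :
    pd i (fun y => ρ y ^ e * f y) x = 0 := by
  simp [pd, (hf.hasFDerivAt_rpow_mul_zero hW hρ h0 hes hx hx0).fderiv]

end

end Vale.Agent.P252.General
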