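import Vale.Agent.P252.Rigidity.General.PointwiseBasic
import Vale.Agent.P252.Rigidity.General.RpowC1

/-!
# Affine maximal functions of `n` variables: the divergence of the certificate's flux

The flux is `η^a (det D²u)^γ det D²u · G Y`, `Y = F^e₀ · polyY`.  In the scaled covectors `η τ`
and `η v` it reads `η^(a-deg+1) (det D²u)^γ det D²u · G Ỹ`, a `C¹` field on the whole domain.
Its divergence is carried to the normalised jet by a matrix `B` with `B Bᵀ = G`.
-/

namespace Vale.Agent.P252.General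

open scoped ContDiff Topology Matrix MatrixOrder
open Finset

noncomputable section

variable {n : ℕ}

/-- The number of covectors in a basic field. -/
def Base.nz : Base → ℕ
  | .k _ => 1
  | .h _ => 1
  | .t _ _ => 2
  | .ah _ => 3
  | .atb _ _ => 4

/-- The power of `η` left over by a basic field of scaled covectors. -/
def Base.cw : Base → ℕ
  | .k _ => 0
  | .h _ => 2
  | .t _ _ => 1
  | .ah _ => 2
  | .atb _ _ => 1

lemma Base.nz_add_cw (b : Base) : b.nz + b.cw = b.wt := by cases b <;> rfl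

lemma Base.cw_le (b : Base) : b.cw ≤ 2 := by cases b <;> simp [Base.cw]

section Defs

variable (u : (Fin n → ℝ) → ℝ) (y : Fin n → ℝ) (Z : Fin 2 → Fin n → ℝ)

/-- `⟨Z_a, Z_b⟩`. -/
def dZ (a b : Fin 2) : ℝ := Z a ⬝ᵥ (hinv u y *ᵥ Z b)

/-- The basic fields of a pair of covectors. -/
def fldB : Base → Fin n → ℝ
  | .k z => Z z
  | .h z => hess (Three.logDet u) y *ᵥ (hinv u y *ᵥ Z z)
  | .t a b => Cm u y (hinv u y *ᵥ Z a) *ᵥ (hinv u y *ᵥ Z b)
  | .ah c =>
      ((hinv u y *ᵥ Z 0) ⬝ᵥ (hess (Three.logDet u) y *ᵥ (hinv u y *ᵥ Z c))) • Z 1 -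
        ((hinv u y *ᵥ Z 1) ⬝ᵥ (hess (Three.logDet u) y *ᵥ (hinv u y *ᵥ Z c))) • Z 0
  | .atb b c =>
      ((hinv u y *ᵥ Z b) ⬝ᵥ (Cm u y (hinv u y *ᵥ Z 0) *ᵥ (hinv u y *ᵥ Z c))) • Z 1 -
        ((hinv u y *ᵥ Z b) ⬝ᵥ (Cm u y (hinv u y *ᵥ Z 1) *ᵥ (hinv u y *ᵥ Z c))) • Z 0

/-- The monomial of a term. -/
def monoZ (T : Term) : ℝ := dZ u y Z 0 0 ^ T.i * dZ u y Z 0 1 ^ T.j * dZ u y Z 1 1 ^ T.k

/-- `d₀₀ + κ d₁₁`. -/
def bigZ (P : Params) : ℝ := dZ u y Z 0 0 + P.kap * dZ u y Z 1 1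

variable (x₀ p : Fin n → ℝ) (h : ℝ)

/-- The covectors `τ`, `v`. -/
def covZ : Fin 2 → Fin n → ℝ :=
  ![grd (Three.logDet u) y, (-(h * etaF u x₀ p h y)⁻¹) • capGrad u x₀ p y]

/-- The covectors `η τ`, `η v`, defined everywhere. -/
def scaZ : Fin 2 → Fin n → ℝ :=
  ![etaF u x₀ p h y • grd (Three.logDet u) y, (-h⁻¹) • capGrad u x₀ p y]

/-- The derivatives of `τ`, `v`. -/
def covD : Fin 2 → Matrix (Fin n) (Fin n) ℝ :=
  ![hess (Three.logDet u) y,
    -Matrix.vecMulVec (covZ u y x₀ p h 1) (covZ u y x₀ p h 1) -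
      (h * etaF u x₀ p h y)⁻¹ • hess u y]

/-- The normalised jet for a congruence `B`. -/
def jetAt (B : Matrix (Fin n) (Fin n) ℝ) : Jet n where
  T k := ∑ l, B l k • (Bᵀ * mh u l y * B)
  H := Bᵀ * hess (Three.logDet u) y * B
  t := Bᵀ *ᵥ covZ u y x₀ p h 0
  v := Bᵀ *ᵥ covZ u y x₀ p h 1
  e := (h * etaF u x₀ p h y)⁻¹

/-- The component of the scaled polynomial part of the field. -/
def scaTerm (T : Term) (j : Fin n) : ℝ :=
  T.c * monoZ u y (scaZ u y x₀ p h) T *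
    (etaF u x₀ p h y ^ T.base.cw * fldB u y (scaZ u y x₀ p h) T.base j)

/-- The flux, defined on the whole domain. -/
def fluxPhi (P : Params) (i : Fin n) : ℝ :=
  ∑ j, (max (etaF u x₀ p h y) 0 ^ ((P.a : ℝ) - P.deg + 1) *
      ((hess u y).det ^ P.gam * cofH u y i j)) *
    (bigZ u y (scaZ u y x₀ p h) P ^ P.e0 * (P.terms.map fun T => scaTerm u y x₀ p h T j).sum)

end Defs

variable {W : Set (Fin n → ℝ)} {u : (Fin n → ℝ) → ℝ} {x₀ p : Fin n → ℝ} {h : ℝ} {y : Fin n → ℝ}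

/-- A congruence `B` with `B Bᵀ` a given positive definite matrix. -/
lemma exists_factor {A : Matrix (Fin n) (Fin n) ℝ} (hA : A.PosDef) :
    ∃ B : Matrix (Fin n) (Fin n) ℝ, B * Bᵀ = A := by
  obtain ⟨C, hC⟩ : ∃ C : Matrix (Fin n) (Fin n) ℝ, A = Cᴴ * C := by
    obtain ⟨C, hC⟩ := CStarAlgebra.nonneg_iff_eq_star_mul_self.mp hA.posSemidef.nonneg
    exact ⟨C, hC⟩
  exact ⟨Cᵀ, by simpa [Matrix.conjTranspose_eq_transpose_of_trivial] using hC.symm⟩

/-! ### The cap function -/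

/-- The gradient of the cap function is `Du - p`. -/
lemma capGrad_apply (hd : DifferentiableAt ℝ u y) (p : Fin n → ℝ) (i : Fin n) :
    capGrad u x₀ p y i = pd i u y - p i := by
  have hc : ∀ j : Fin n, DifferentiableAt ℝ (fun z : Fin n → ℝ => z j - x₀ j) y := fun j =>
    (differentiableAt_apply j y).sub_const _
  have hl : pd i (fun z : Fin n → ℝ => ∑ j, p j * (z j - x₀ j)) y = p i := by
    rw [pd_sum fun j _ => (hc j).const_mul (p j)]
    have : ∀ j : Fin n, pd i (fun z : Fin n → ℝ => p j * (z j - x₀ j)) y =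
        if j = i then p j else 0 := fun j => by
      rw [pd_mul (differentiableAt_const _) (hc j), pd_const, pd_sub (differentiableAt_apply j y)
        (differentiableAt_const _), pd_const, pd, (hasFDerivAt_apply j y).fderiv]
      simp [Pi.single_apply]
    simp [this]
  show pd i (fun z => u z - u x₀ - ∑ j, p j * (z j - x₀ j)) y = pd i u y - p i
  rw [pd_sub (hd.sub_const _) (DifferentiableAt.fun_sum fun j _ => (hc j).const_mul (p j)),
    pd_sub hd (differentiableAt_const _), pd_const, hl, sub_zero]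

section Smooth

variable (hu : Three.AM W u)
include hu

lemma sm_capFun : Sm W (capFun u x₀ p) :=
  (hu.sm.sub (sm_const _)).sub (sm_sum _ fun j _ =>
    (sm_const (p j)).mul ((contDiff_apply ℝ ℝ j).contDiffOn.sub (sm_const (x₀ j))))

lemma sm_etaF : Sm W (etaF u x₀ p h) :=
  (sm_const 1).sub ((sm_capFun hu).div_const h)

lemma vsm_capGrad : VSm W (capGrad u x₀ p) := fun i => (sm_capFun hu).pd hu.isOpen i

lemma vsm_scaZ (a : Fin 2) : VSm W fun z => scaZ u z x₀ p h a := by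
  fin_cases a
  · exact VSm.smul (sm_etaF hu) (vsm_grd_logDet hu)
  · exact VSm.smul (sm_const (-h⁻¹)) (vsm_capGrad hu)

variable {Z : (Fin n → ℝ) → Fin 2 → Fin n → ℝ} (hZ : ∀ a, VSm W fun z => Z z a)
include hZ

lemma sm_dZ (a b : Fin 2) : Sm W fun z => dZ u z (Z z) a b :=
  sm_dotProduct (hZ a) (VSm.mulVec hu.msm_hinv (hZ b))

lemma sm_monoZ (T : Term) : Sm W fun z => monoZ u z (Z z) T :=
  (((sm_dZ hu hZ 0 0).pow _).mul ((sm_dZ hu hZ 0 1).pow _)).mul ((sm_dZ hu hZ 1 1).pow _)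

lemma sm_bigZ (P : Params) : Sm W fun z => bigZ u z (Z z) P :=
  (sm_dZ hu hZ 0 0).add ((sm_const P.kap).mul (sm_dZ hu hZ 1 1))

lemma vsm_fldB (b : Base) : VSm W fun z => fldB u z (Z z) b := by
  have hU : ∀ a, VSm W fun z => hinv u z *ᵥ Z z a := fun a => VSm.mulVec hu.msm_hinv (hZ a)
  have hH : MSm W (hess (Three.logDet u)) := msm_hess hu.isOpen hu.sm_logDet
  cases b with
  | k z => exact hZ z
  | h z => exact VSm.mulVec hH (hU z)
  | t a b => exact VSm.mulVec (msm_Cm hu (hU a)) (hU b)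
  | ah c =>
    exact VSm.sub (VSm.smul (sm_dotProduct (hU 0) (VSm.mulVec hH (hU c))) (hZ 1))
      (VSm.smul (sm_dotProduct (hU 1) (VSm.mulVec hH (hU c))) (hZ 0))
  | atb b c =>
    exact VSm.sub
      (VSm.smul (sm_dotProduct (hU b) (VSm.mulVec (msm_Cm hu (hU 0)) (hU c))) (hZ 1))
      (VSm.smul (sm_dotProduct (hU b) (VSm.mulVec (msm_Cm hu (hU 1)) (hU c))) (hZ 0))

end Smooth

/-! ### Where `η > 0` -/

/-- The hypotheses at every point of the domain. -/
structure Dom (W : Set (Fin n → ℝ)) (u : (Fin n → ℝ) → ℝ) (x₀ p : Fin n → ℝ) (h : ℝ) : Prop where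
  am : Three.AM W u
  hpos : 0 < h
  eta : ∀ z ∈ W, 0 < etaF u x₀ p h z

variable (D : Dom W u x₀ p h)
include D

lemma vsm_covZ (a : Fin 2) : VSm W fun z => covZ u z x₀ p h a := by
  fin_cases a
  · exact vsm_grd_logDet D.am
  · exact VSm.smul ((ContDiffOn.inv ((sm_const h).mul (sm_etaF D.am)) fun z hz =>
      mul_ne_zero D.hpos.ne' (D.eta z hz).ne').neg) (vsm_capGrad D.am)

variable (hy : y ∈ W)
include hy

lemma pd_capGrad (i j : Fin n) :
    pd i (fun z => capGrad u x₀ p z j) y = hess u y i j := by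
  have hu := D.am
  rw [pd_congr_on hu.isOpen hy (g := fun z => pd j u z - p j)
      (fun z hz => capGrad_apply (hu.sm.differentiableAt hu.isOpen hz) p j),
    pd_sub ((hu.sm.pd hu.isOpen j).differentiableAt hu.isOpen hy) (differentiableAt_const _),
    pd_const, sub_zero]
  rfl

lemma grd_etaF : grd (etaF u x₀ p h) y = (-h⁻¹) • capGrad u x₀ p y := by
  have hu := D.am
  funext i
  show pd i (fun z => 1 - capFun u x₀ p z / h) y = _
  simp only [div_eq_mul_inv]
  rw [pd_sub (differentiableAt_const _)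
      ((((sm_capFun hu).differentiableAt hu.isOpen hy)).mul_const _),
    pd_const, pd_mul ((sm_capFun hu).differentiableAt hu.isOpen hy) (differentiableAt_const _),
    pd_const]
  simp [capGrad]
  ring

lemma vd_covZ (a : Fin 2) : vd (fun z => covZ u z x₀ p h a) y = covD u y x₀ p h a := by
  have hu := D.am
  have hW := hu.isOpen
  fin_cases a
  · rfl
  · have hne := mul_ne_zero D.hpos.ne' (D.eta y hy).ne'
    have hf : Sm W fun z => -(h * etaF u x₀ p h z)⁻¹ :=
      (ContDiffOn.inv ((sm_const h).mul (sm_etaF hu)) fun z hz =>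
        mul_ne_zero D.hpos.ne' (D.eta z hz).ne').neg
    show vd (fun z => (-(h * etaF u x₀ p h z)⁻¹) • capGrad u x₀ p z) y = _
    rw [vd_smul hW hy hf (vsm_capGrad hu)]
    have hd : DifferentiableAt ℝ (fun z => h * etaF u x₀ p h z) y :=
      ((sm_const h).mul (sm_etaF hu)).differentiableAt hW hy
    have e : ∀ i, pd i (fun z => -(h * etaF u x₀ p h z)⁻¹) y =
        ((h * etaF u x₀ p h y) ^ 2)⁻¹ * (-capGrad u x₀ p y i) := by
      intro i
      have e0 := congrFun (grd_etaF D hy) i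
      simp only [grd, Pi.smul_apply, smul_eq_mul] at e0
      have : pd i (fun z => -(h * etaF u x₀ p h z)⁻¹) y =
          ((h * etaF u x₀ p h y) ^ 2)⁻¹ * pd i (fun z => h * etaF u x₀ p h z) y := by
        show fderiv ℝ (fun z => -(h * etaF u x₀ p h z)⁻¹) y (Pi.single i 1) = _
        rw [show (fun z => -(h * etaF u x₀ p h z)⁻¹) =
          -((fun r : ℝ => r⁻¹) ∘ fun z => h * etaF u x₀ p h z) from rfl]
        rw [((hasDerivAt_inv hne).comp_hasFDerivAt (f := fun z => h * etaF u x₀ p h z) y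
          hd.hasFDerivAt).neg.fderiv]
        simp [pd]
      rw [this, pd_mul (differentiableAt_const _) ((sm_etaF hu).differentiableAt hW hy), pd_const,
        e0]
      field_simp [D.hpos.ne']
      ring
    ext i j
    show pd i (fun z => -(h * etaF u x₀ p h z)⁻¹) y * capGrad u x₀ p y j +
        (-(h * etaF u x₀ p h y)⁻¹) * pd i (fun z => capGrad u x₀ p z j) y =
      -((-(h * etaF u x₀ p h y)⁻¹ * capGrad u x₀ p y i) *
          (-(h * etaF u x₀ p h y)⁻¹ * capGrad u x₀ p y j)) -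
        (h * etaF u x₀ p h y)⁻¹ * hess u y i j
    rw [e, pd_capGrad D hy]
    ring

lemma covD_transpose (a : Fin 2) : (covD u y x₀ p h a)ᵀ = covD u y x₀ p h a := by
  have hu := D.am
  fin_cases a <;>
    simp [covD, hess_symm hu.isOpen hu.sm_logDet hy, hess_symm hu.isOpen hu.sm hy,
      Matrix.transpose_vecMulVec]

variable {B : Matrix (Fin n) (Fin n) ℝ} (hB : B * Bᵀ = hinv u y)
include hB

omit D hy in
lemma dot_transfer (a b : Fin n → ℝ) : (Bᵀ *ᵥ a) ⬝ᵥ (Bᵀ *ᵥ b) = a ⬝ᵥ (hinv u y *ᵥ b) := by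
  rw [← hB, ← Matrix.mulVec_mulVec, Matrix.dotProduct_mulVec a B, ← Matrix.mulVec_transpose]

omit D hy in
lemma mulVec_transfer (X : Matrix (Fin n) (Fin n) ℝ) (a : Fin n → ℝ) :
    (Bᵀ * X * B) *ᵥ (Bᵀ *ᵥ a) = Bᵀ *ᵥ (X *ᵥ (hinv u y *ᵥ a)) := by
  rw [← hB, ← Matrix.mulVec_mulVec (M := B), ← Matrix.mulVec_mulVec, ← Matrix.mulVec_mulVec]

omit D hy in
lemma trace_transfer (X : Matrix (Fin n) (Fin n) ℝ) :
    (Bᵀ * X * B).trace = (hinv u y * X).trace := by
  rw [Matrix.trace_mul_comm, ← mul_assoc, hB]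

omit D hy in
lemma mul_transfer (X Y : Matrix (Fin n) (Fin n) ℝ) :
    Bᵀ * X * B * (Bᵀ * Y * B) = Bᵀ * (X * hinv u y * Y) * B := by
  simp only [← hB, mul_assoc]

lemma conj_hess : Bᵀ * hess u y * B = 1 := by
  have h1 : B * (Bᵀ * hess u y) = 1 := by rw [← mul_assoc, hB, hinv_mul_hess D.am hy]
  rw [mul_eq_one_comm] at h1
  exact h1

omit D hy hB in
lemma jet_Z (a : Fin 2) : (jetAt u y x₀ p h B).Z a = Bᵀ *ᵥ covZ u y x₀ p h a := by
  fin_cases a <;> rfl

omit D hy in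
lemma jet_C (a : Fin 2) : (jetAt u y x₀ p h B).C a =
    Bᵀ * Cm u y (hinv u y *ᵥ covZ u y x₀ p h a) * B := by
  show ∑ k, (jetAt u y x₀ p h B).Z a k • ∑ l, B l k • (Bᵀ * mh u l y * B) = _
  have e : hinv u y *ᵥ covZ u y x₀ p h a = B *ᵥ (Bᵀ *ᵥ covZ u y x₀ p h a) := by
    rw [Matrix.mulVec_mulVec, hB]
  simp only [smul_sum, smul_smul, jet_Z]
  rw [sum_comm]
  simp only [Cm, Matrix.mul_sum, Matrix.sum_mul, Matrix.mul_smul, Matrix.smul_mul, ← sum_smul, e]
  refine sum_congr rfl fun l _ => ?_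
  congr 1
  exact sum_congr rfl fun k _ => mul_comm _ _

lemma jet_dl (a : Fin 2) : (jetAt u y x₀ p h B).dl a = Bᵀ * covD u y x₀ p h a * B := by
  have hv : ∀ a : Fin n → ℝ, Matrix.vecMulVec (Bᵀ *ᵥ a) (Bᵀ *ᵥ a) =
      Bᵀ * Matrix.vecMulVec a a * B := fun a => by
    rw [Matrix.mul_vecMulVec, Matrix.vecMulVec_mul, ← Matrix.mulVec_transpose]
  fin_cases a
  · rfl
  · show -Matrix.vecMulVec (Bᵀ *ᵥ covZ u y x₀ p h 1) (Bᵀ *ᵥ covZ u y x₀ p h 1) -
      (h * etaF u x₀ p h y)⁻¹ • (1 : Matrix (Fin n) (Fin n) ℝ) = Bᵀ * _ * B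
    rw [hv, ← conj_hess D hy hB]
    simp [covD, Matrix.mul_sub, Matrix.sub_mul]

lemma jet_du (a : Fin 2) : (jetAt u y x₀ p h B).du a =
    Bᵀ * (covD u y x₀ p h a - Cm u y (hinv u y *ᵥ covZ u y x₀ p h a)) * B := by
  rw [Jet.du, jet_dl D hy hB, jet_C hB, Matrix.mul_sub, Matrix.sub_mul]

omit D hy in
lemma jet_d (a b : Fin 2) :
    (jetAt u y x₀ p h B).d a b = dZ u y (covZ u y x₀ p h) a b := by
  rw [Jet.d, jet_Z, jet_Z, dot_transfer hB, dZ]

/-- The gradient of `⟨Z_a, Z_b⟩`. -/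
lemma jet_dd (a b : Fin 2) : (jetAt u y x₀ p h B).dd a b =
    Bᵀ *ᵥ grd (fun z => dZ u z (covZ u z x₀ p h) a b) y := by
  have hu := D.am
  have hb := vsm_covZ D b
  simp only [dZ]
  rw [grd_dotProduct hu.isOpen hy (vsm_covZ D a) (VSm.mulVec hu.msm_hinv hb), vd_ginv hu hy hb,
    vd_covZ D hy, vd_covZ D hy, Jet.dd, jet_dl D hy hB, jet_du D hy hB, jet_Z, jet_Z,
    mulVec_transfer hB, mulVec_transfer hB, ← Matrix.mulVec_mulVec, Matrix.mulVec_add]

omit D hy in
lemma jet_baseY (b : Base) :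
    (jetAt u y x₀ p h B).baseY b = Bᵀ *ᵥ fldB u y (covZ u y x₀ p h) b := by
  have hH : (jetAt u y x₀ p h B).H = Bᵀ * hess (Three.logDet u) y * B := rfl
  cases b with
  | k z => exact jet_Z z
  | h z => simp only [Jet.baseY, fldB, hH, jet_Z, mulVec_transfer hB]
  | t a b => simp only [Jet.baseY, fldB, jet_C hB, jet_Z, mulVec_transfer hB]
  | ah c =>
    have sw : ∀ s r : Fin n → ℝ, (Bᵀ *ᵥ s) ⬝ᵥ (Bᵀ *ᵥ r) = (hinv u y *ᵥ s) ⬝ᵥ r := fun s r => by
      rw [dotProduct_comm, dot_transfer hB, dotProduct_comm]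
    simp only [Jet.baseY, fldB, hH, jet_Z, mulVec_transfer hB, sw, Matrix.mulVec_sub,
      Matrix.mulVec_smul]
  | atb b c =>
    have sw : ∀ s r : Fin n → ℝ, (Bᵀ *ᵥ s) ⬝ᵥ (Bᵀ *ᵥ r) = (hinv u y *ᵥ s) ⬝ᵥ r := fun s r => by
      rw [dotProduct_comm, dot_transfer hB, dotProduct_comm]
    simp only [Jet.baseY, fldB, jet_C hB, jet_Z, mulVec_transfer hB, sw, Matrix.mulVec_sub,
      Matrix.mulVec_smul]

/-- The divergences of the basic fields. -/
lemma jet_baseDiv (b : Base) : (jetAt u y x₀ p h B).baseDiv b =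
    gdiv u (fun z => fldB u z (covZ u z x₀ p h) b) y := by
  have hu := D.am
  have hW := hu.isOpen
  have hH : (jetAt u y x₀ p h B).H = Bᵀ * hess (Three.logDet u) y * B := rfl
  have hZ := vsm_covZ D
  have hU : ∀ a, VSm W fun z => hinv u z *ᵥ covZ u z x₀ p h a := fun a =>
    VSm.mulVec hu.msm_hinv (hZ a)
  have hL : MSm W (hess (Three.logDet u)) := msm_hess hW hu.sm_logDet
  have hG := hinv_transpose hu hy
  have sw : ∀ s r : Fin n → ℝ, s ⬝ᵥ (hinv u y *ᵥ r) = (hinv u y *ᵥ s) ⬝ᵥ r := fun s r => by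
    rw [Matrix.dotProduct_mulVec, ← Matrix.mulVec_transpose, hG]
  have hk : ∀ z, gdiv u (fun w => covZ u w x₀ p h z) y =
      ((jetAt u y x₀ p h B).dl z).trace := fun z => by
    rw [gdiv_eq_trace, vd_covZ D hy, covD_transpose D hy, jet_dl D hy hB, trace_transfer hB]
  cases b with
  | k z => exact (hk z).symm
  | h z =>
    show _ = gdiv u (fun w => hess (Three.logDet u) w *ᵥ (hinv u w *ᵥ covZ u w x₀ p h z)) y
    rw [gdiv_hessField hu hy (hZ z), vd_covZ D hy, Matrix.transpose_sub, covD_transpose D hy,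
      Cm_transpose hu hy]
    have e2 : (2 : ℝ) • (Bᵀ * hess (Three.logDet u) y * B) -
        Bᵀ * Cm u y (hinv u y *ᵥ covZ u y x₀ p h 0) * B =
        Bᵀ * ((2 : ℝ) • hess (Three.logDet u) y -
          Cm u y (hinv u y *ᵥ covZ u y x₀ p h 0)) * B := by
      simp [Matrix.mul_sub, Matrix.sub_mul]
    have ht : (jetAt u y x₀ p h B).t = Bᵀ *ᵥ covZ u y x₀ p h 0 := rfl
    simp only [Jet.baseDiv, hH, ht, jet_Z, jet_C hB, jet_du D hy hB, e2, mul_transfer hB,
      trace_transfer hB, mulVec_transfer hB, dot_transfer hB, sw]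
    simp only [mul_assoc]
    rfl
  | t a b =>
    show _ = gdiv u (fun w => Cm u w (hinv u w *ᵥ covZ u w x₀ p h a) *ᵥ
      (hinv u w *ᵥ covZ u w x₀ p h b)) y
    rw [gdiv_cubicField hu hy (hZ a) (hZ b), vd_covZ D hy, vd_covZ D hy, Matrix.transpose_sub,
      Matrix.transpose_sub, covD_transpose D hy, covD_transpose D hy, Cm_transpose hu hy,
      Cm_transpose hu hy]
    simp only [Jet.baseDiv, hH, jet_Z, jet_C hB, jet_du D hy hB, mul_transfer hB,
      trace_transfer hB, mulVec_transfer hB, dot_transfer hB, sw]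
    simp only [mul_assoc]
  | ah c =>
    show _ = gdiv u (fun w => ((hinv u w *ᵥ covZ u w x₀ p h 0) ⬝ᵥ (hess (Three.logDet u) w *ᵥ
        (hinv u w *ᵥ covZ u w x₀ p h c))) • covZ u w x₀ p h 1 -
      ((hinv u w *ᵥ covZ u w x₀ p h 1) ⬝ᵥ (hess (Three.logDet u) w *ᵥ
        (hinv u w *ᵥ covZ u w x₀ p h c))) • covZ u w x₀ p h 0) y
    have hs : ∀ a, Sm W fun w => (hinv u w *ᵥ covZ u w x₀ p h a) ⬝ᵥ (hess (Three.logDet u) w *ᵥ
        (hinv u w *ᵥ covZ u w x₀ p h c)) := fun a =>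
      sm_dotProduct (hU a) (VSm.mulVec hL (hU c))
    rw [gdiv_sub hW hy (VSm.smul (hs 0) (hZ 1)) (VSm.smul (hs 1) (hZ 0)),
      gdiv_smul hW hy (hs 0) (hZ 1), gdiv_smul hW hy (hs 1) (hZ 0), hk, hk,
      grd_bilin hW hy hL (hU 0) (hU c), grd_bilin hW hy hL (hU 1) (hU c), vd_ginv hu hy (hZ 0),
      vd_ginv hu hy (hZ 1), vd_ginv hu hy (hZ c), vd_covZ D hy, vd_covZ D hy, vd_covZ D hy,
      hess_symm hW hu.sm_logDet hy]
    have hS : Sym3 fun i => mpd i (hess (Three.logDet u)) y :=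
      ⟨fun a b c => (mpd_hess_symm hW hu.sm_logDet hy a b c).1,
        fun a b c => (mpd_hess_symm hW hu.sm_logDet hy a b c).2⟩
    have hR := sym3_dot_swap hS (hinv u y *ᵥ covZ u y x₀ p h 0)
      (hinv u y *ᵥ covZ u y x₀ p h 1) (hinv u y *ᵥ covZ u y x₀ p h c)
    simp only [Jet.baseDiv, Jet.gradH, hH, jet_Z, jet_du D hy hB, mulVec_transfer hB,
      ← Matrix.mulVec_add, dot_transfer hB, sw, ← Matrix.mulVec_mulVec]
    rw [sw, sw] at hR
    simp only [Matrix.mulVec_add, add_dotProduct]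
    linarith
  | atb b c =>
    show _ = gdiv u (fun w => ((hinv u w *ᵥ covZ u w x₀ p h b) ⬝ᵥ
        (Cm u w (hinv u w *ᵥ covZ u w x₀ p h 0) *ᵥ
        (hinv u w *ᵥ covZ u w x₀ p h c))) • covZ u w x₀ p h 1 -
      ((hinv u w *ᵥ covZ u w x₀ p h b) ⬝ᵥ (Cm u w (hinv u w *ᵥ covZ u w x₀ p h 1) *ᵥ
        (hinv u w *ᵥ covZ u w x₀ p h c))) • covZ u w x₀ p h 0) y
    have hs : ∀ a, Sm W fun w => (hinv u w *ᵥ covZ u w x₀ p h b) ⬝ᵥ
        (Cm u w (hinv u w *ᵥ covZ u w x₀ p h a) *ᵥ (hinv u w *ᵥ covZ u w x₀ p h c)) := fun a =>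
      sm_dotProduct (hU b) (VSm.mulVec (msm_Cm hu (hU a)) (hU c))
    have hg : ∀ a, grd (fun w => (hinv u w *ᵥ covZ u w x₀ p h b) ⬝ᵥ
        (Cm u w (hinv u w *ᵥ covZ u w x₀ p h a) *ᵥ (hinv u w *ᵥ covZ u w x₀ p h c))) y =
        vd (fun z => hinv u z *ᵥ covZ u z x₀ p h b) y *ᵥ
          (Cm u y (hinv u y *ᵥ covZ u y x₀ p h a) *ᵥ (hinv u y *ᵥ covZ u y x₀ p h c)) +
        vd (fun z => hinv u z *ᵥ covZ u z x₀ p h c) y *ᵥ
          (Cm u y (hinv u y *ᵥ covZ u y x₀ p h a) *ᵥ (hinv u y *ᵥ covZ u y x₀ p h b)) +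
        vd (fun z => hinv u z *ᵥ covZ u z x₀ p h a) y *ᵥ
          (Cm u y (hinv u y *ᵥ covZ u y x₀ p h b) *ᵥ (hinv u y *ᵥ covZ u y x₀ p h c)) +
        fun i => ∑ k, (hinv u y *ᵥ covZ u y x₀ p h a) k *
          ((hinv u y *ᵥ covZ u y x₀ p h b) ⬝ᵥ
            (mpd i (mh u k) y *ᵥ (hinv u y *ᵥ covZ u y x₀ p h c))) := by
      intro a
      rw [grd_bilin hW hy (msm_Cm hu (hU a)) (hU b) (hU c), Cm_transpose hu hy,
        add_assoc _ (vd _ y *ᵥ _) (fun i => ∑ k, _)]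
      congr 1
      funext i
      rw [mpd_Cm hu hy (hU a), Matrix.add_mulVec, dotProduct_add, Pi.add_apply]
      congr 1
      · rw [Cm_comm hu hy, Matrix.dotProduct_mulVec, ← Matrix.mulVec_transpose,
          Cm_transpose hu hy, Cm_comm hu hy, dotProduct_comm]
        rfl
      · simp only [Matrix.sum_mulVec, Matrix.smul_mulVec, dotProduct_sum, dotProduct_smul,
          smul_eq_mul]
    rw [gdiv_sub hW hy (VSm.smul (hs 0) (hZ 1)) (VSm.smul (hs 1) (hZ 0)),
      gdiv_smul hW hy (hs 0) (hZ 1), gdiv_smul hW hy (hs 1) (hZ 0), hk, hk, hg, hg,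
      vd_ginv hu hy (hZ 0), vd_ginv hu hy (hZ 1), vd_ginv hu hy (hZ b), vd_ginv hu hy (hZ c),
      vd_covZ D hy, vd_covZ D hy, vd_covZ D hy, vd_covZ D hy]
    have hR : (fun i => ∑ k, (hinv u y *ᵥ covZ u y x₀ p h 0) k *
          ((hinv u y *ᵥ covZ u y x₀ p h b) ⬝ᵥ
            (mpd i (mh u k) y *ᵥ (hinv u y *ᵥ covZ u y x₀ p h c)))) ⬝ᵥ
          (hinv u y *ᵥ covZ u y x₀ p h 1) =
        (fun i => ∑ k, (hinv u y *ᵥ covZ u y x₀ p h 1) k *
          ((hinv u y *ᵥ covZ u y x₀ p h b) ⬝ᵥ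
            (mpd i (mh u k) y *ᵥ (hinv u y *ᵥ covZ u y x₀ p h c)))) ⬝ᵥ
          (hinv u y *ᵥ covZ u y x₀ p h 0) := by
      generalize hinv u y *ᵥ covZ u y x₀ p h b = U
      generalize hinv u y *ᵥ covZ u y x₀ p h c = V
      generalize hinv u y *ᵥ covZ u y x₀ p h 0 = X
      generalize hinv u y *ᵥ covZ u y x₀ p h 1 = Y
      simp only [dotProduct, sum_mul]
      rw [sum_comm]
      exact sum_congr rfl fun i _ => sum_congr rfl fun k _ => by
        rw [mpd_mh_comm hu hy i k]; ring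
    simp only [Jet.baseDiv, Jet.gradT, jet_Z, jet_C hB, jet_du D hy hB, mulVec_transfer hB,
      ← Matrix.mulVec_add, dot_transfer hB, sw, ← Matrix.mulVec_mulVec]
    rw [sw, sw] at hR
    simp only [Matrix.mulVec_add, add_dotProduct]
    linarith

lemma jet_valid : (jetAt u y x₀ p h B).Valid where
  symT := by
    have key : ∀ a b c, (jetAt u y x₀ p h B).T a b c =
        (fun i => B i b) ⬝ᵥ (Cm u y (fun l => B l a) *ᵥ fun i => B i c) := fun a b c => by
      simp only [jetAt, Cm, Matrix.sum_apply, Matrix.smul_apply, Matrix.mul_apply,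
        Matrix.transpose_apply, smul_eq_mul, dotProduct, Matrix.mulVec, sum_mul, mul_sum]
      rw [sum_comm (f := fun i j => ∑ l, _)]
      refine (sum_congr rfl fun l _ => sum_comm).trans ?_
      rw [sum_comm]
      exact sum_congr rfl fun i _ => sum_congr rfl fun j _ => sum_congr rfl fun l _ => by ring
    have swap : ∀ x y' z : Fin n → ℝ,
        x ⬝ᵥ (Cm u y y' *ᵥ z) = z ⬝ᵥ (Cm u y y' *ᵥ x) := fun x y' z => by
      rw [Matrix.dotProduct_mulVec, ← Matrix.mulVec_transpose, Cm_transpose D.am hy,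
        dotProduct_comm]
    intro a b c
    constructor
    · rw [key, key, swap, Cm_comm D.am hy, swap]
    · rw [key, key, swap]
  symH := by
    simp [jetAt, Matrix.transpose_mul, hess_symm D.am.isOpen D.am.sm_logDet hy, mul_assoc]
  trT := fun k => by
    show (∑ l, B l k • (Bᵀ * mh u l y * B)).trace = (Bᵀ *ᵥ covZ u y x₀ p h 0) k
    simp only [Matrix.trace_sum, Matrix.trace_smul, trace_transfer hB, ← pd_logDet D.am hy,
      smul_eq_mul]
    rfl
  trH := by
    show (Bᵀ * hess (Three.logDet u) y * B).trace = ((n : ℝ) + 1) / ((n : ℝ) + 2) *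
      ((Bᵀ *ᵥ covZ u y x₀ p h 0) ⬝ᵥ (Bᵀ *ᵥ covZ u y x₀ p h 0))
    rw [trace_transfer hB, trace_logDet D.am hy, dot_transfer hB]
    rfl
  e_pos := inv_pos.2 (mul_pos D.hpos (D.eta y hy))

omit D hy in
lemma jet_bigF (P : Params) :
    (jetAt u y x₀ p h B).bigF P = bigZ u y (covZ u y x₀ p h) P := by
  simp only [Jet.bigF, jet_d hB, bigZ]

omit D hy in
lemma jet_mono (T : Term) :
    (jetAt u y x₀ p h B).mono T = monoZ u y (covZ u y x₀ p h) T := by
  simp only [Jet.mono, jet_d hB, monoZ]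

lemma jet_dmono (T : Term) : (jetAt u y x₀ p h B).dmono T =
    Bᵀ *ᵥ grd (fun z => monoZ u z (covZ u z x₀ p h) T) y := by
  have hu := D.am
  have hd : ∀ a b, DifferentiableAt ℝ (fun z => dZ u z (covZ u z x₀ p h) a b) y := fun a b =>
    (sm_dZ hu (vsm_covZ D) a b).differentiableAt hu.isOpen hy
  have e : grd (fun z => monoZ u z (covZ u z x₀ p h) T) y =
      ((T.i : ℝ) * dZ u y (covZ u y x₀ p h) 0 0 ^ (T.i - 1) *
          dZ u y (covZ u y x₀ p h) 0 1 ^ T.j * dZ u y (covZ u y x₀ p h) 1 1 ^ T.k) •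
        grd (fun z => dZ u z (covZ u z x₀ p h) 0 0) y +
      (dZ u y (covZ u y x₀ p h) 0 0 ^ T.i *
          ((T.j : ℝ) * dZ u y (covZ u y x₀ p h) 0 1 ^ (T.j - 1)) *
          dZ u y (covZ u y x₀ p h) 1 1 ^ T.k) •
        grd (fun z => dZ u z (covZ u z x₀ p h) 0 1) y +
      (dZ u y (covZ u y x₀ p h) 0 0 ^ T.i * dZ u y (covZ u y x₀ p h) 0 1 ^ T.j *
          ((T.k : ℝ) * dZ u y (covZ u y x₀ p h) 1 1 ^ (T.k - 1))) •
        grd (fun z => dZ u z (covZ u z x₀ p h) 1 1) y := by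
    funext i
    simp only [grd, monoZ, Pi.add_apply, Pi.smul_apply, smul_eq_mul]
    rw [pd_mul ((hd 0 0).fun_pow _ |>.fun_mul ((hd 0 1).fun_pow _)) ((hd 1 1).fun_pow _),
      pd_mul ((hd 0 0).fun_pow _) ((hd 0 1).fun_pow _), pd_pow (hd 0 0), pd_pow (hd 0 1),
      pd_pow (hd 1 1)]
    ring
  rw [e, Jet.dmono]
  simp only [jet_d hB, jet_dd D hy hB, Matrix.mulVec_add, Matrix.mulVec_smul]

lemma jet_dF (P : Params) : (jetAt u y x₀ p h B).dF P =
    Bᵀ *ᵥ grd (fun z => bigZ u z (covZ u z x₀ p h) P) y := by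
  have hu := D.am
  have hd : ∀ a b, DifferentiableAt ℝ (fun z => dZ u z (covZ u z x₀ p h) a b) y := fun a b =>
    (sm_dZ hu (vsm_covZ D) a b).differentiableAt hu.isOpen hy
  have e : grd (fun z => bigZ u z (covZ u z x₀ p h) P) y =
      grd (fun z => dZ u z (covZ u z x₀ p h) 0 0) y +
        P.kap • grd (fun z => dZ u z (covZ u z x₀ p h) 1 1) y := by
    funext i
    simp only [grd, bigZ, Pi.add_apply, Pi.smul_apply, smul_eq_mul]
    rw [pd_add (hd 0 0) ((hd 1 1).const_mul _), pd_mul (differentiableAt_const _) (hd 1 1),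
      pd_const, zero_mul, zero_add]
  rw [e, Jet.dF, jet_dd D hy hB, jet_dd D hy hB, Matrix.mulVec_add, Matrix.mulVec_smul]

omit D hy hB in
/-- The logarithmic gradient of the weight `η^a (det D²u)^γ`. -/
def covW (u : (Fin n → ℝ) → ℝ) (x₀ p : Fin n → ℝ) (h : ℝ) (P : Params) (y : Fin n → ℝ) :
    Fin n → ℝ :=
  (P.a : ℝ) • covZ u y x₀ p h 1 + P.gam • covZ u y x₀ p h 0

omit D hy hB in
lemma jet_dW (P : Params) : (jetAt u y x₀ p h B).dW P = Bᵀ *ᵥ covW u x₀ p h P y := by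
  simp [Jet.dW, covW, jetAt, Matrix.mulVec_add, Matrix.mulVec_smul]

omit D hy hB in
/-- The polynomial part of the field. -/
def polyF (u : (Fin n → ℝ) → ℝ) (x₀ p : Fin n → ℝ) (h : ℝ) (l : List Term) (y : Fin n → ℝ) :
    Fin n → ℝ :=
  (l.map fun T => (T.c * monoZ u y (covZ u y x₀ p h) T) • fldB u y (covZ u y x₀ p h) T.base).sum

omit hy hB in
lemma vsm_polyF (l : List Term) : VSm W (polyF u x₀ p h l) := by
  induction l with
  | nil => exact fun i => sm_const 0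
  | cons T l ih =>
    exact VSm.add (VSm.smul ((sm_const T.c).mul (sm_monoZ D.am (vsm_covZ D) T))
      (vsm_fldB D.am (vsm_covZ D) T.base)) ih

/-- The divergence of the polynomial part. -/
lemma jet_polyDiv (P : Params) : (jetAt u y x₀ p h B).polyDiv P =
    gdiv u (polyF u x₀ p h P.terms) y +
      covW u x₀ p h P y ⬝ᵥ (hinv u y *ᵥ polyF u x₀ p h P.terms y) := by
  have hu := D.am
  have hW := hu.isOpen
  have hterm : ∀ T : Term, T.c * ((jetAt u y x₀ p h B).mono T *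
        ((jetAt u y x₀ p h B).baseDiv T.base +
          (jetAt u y x₀ p h B).dW P ⬝ᵥ (jetAt u y x₀ p h B).baseY T.base) +
        (jetAt u y x₀ p h B).dmono T ⬝ᵥ (jetAt u y x₀ p h B).baseY T.base) =
      gdiv u (fun z => (T.c * monoZ u z (covZ u z x₀ p h) T) •
          fldB u z (covZ u z x₀ p h) T.base) y +
        covW u x₀ p h P y ⬝ᵥ (hinv u y *ᵥ ((T.c * monoZ u y (covZ u y x₀ p h) T) •
          fldB u y (covZ u y x₀ p h) T.base)) := fun T => by
    have hm := sm_monoZ hu (vsm_covZ D) T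
    have hY := vsm_fldB hu (vsm_covZ D) T.base
    have hc : (fun z => (T.c * monoZ u z (covZ u z x₀ p h) T) •
        fldB u z (covZ u z x₀ p h) T.base) = fun z => T.c • (monoZ u z (covZ u z x₀ p h) T •
          fldB u z (covZ u z x₀ p h) T.base) := funext fun z => (smul_smul _ _ _).symm
    rw [hc, gdiv_const_smul hW hy _ (VSm.smul hm hY), gdiv_smul hW hy hm hY,
      jet_mono hB, jet_baseDiv D hy hB, jet_dmono D hy hB, jet_dW, jet_baseY hB,
      dot_transfer hB, dot_transfer hB, Matrix.mulVec_smul, dotProduct_smul, smul_eq_mul]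
    ring
  unfold Jet.polyDiv
  simp only [hterm]
  induction P.terms with
  | nil =>
    have e : polyF u x₀ p h [] = fun _ => 0 := rfl
    simp [e, gdiv_zero]
  | cons T l ih =>
    have e : polyF u x₀ p h (T :: l) = fun z => (T.c * monoZ u z (covZ u z x₀ p h) T) •
        fldB u z (covZ u z x₀ p h) T.base + polyF u x₀ p h l z := rfl
    rw [List.map_cons, List.sum_cons, ih, e, gdiv_add hW hy (VSm.smul ((sm_const T.c).mul
        (sm_monoZ hu (vsm_covZ D) T)) (vsm_fldB hu (vsm_covZ D) T.base)) (vsm_polyF D l)]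
    simp only [Matrix.mulVec_add, dotProduct_add]
    ring

omit D hy in
lemma jet_polyY (P : Params) :
    (jetAt u y x₀ p h B).polyY P = Bᵀ *ᵥ polyF u x₀ p h P.terms y := by
  unfold Jet.polyY polyF
  induction P.terms with
  | nil => simp
  | cons T l ih =>
    rw [List.map_cons, List.map_cons, List.sum_cons, List.sum_cons, ih, Matrix.mulVec_add,
      Matrix.mulVec_smul, jet_mono hB, jet_baseY hB]

omit D hy hB in
lemma pd_rpow {g : (Fin n → ℝ) → ℝ} (hg : DifferentiableAt ℝ g y) (h0 : g y ≠ 0) (e : ℝ)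
    (i : Fin n) : pd i (fun z => g z ^ e) y = e * g y ^ (e - 1) * pd i g y := by
  simp [pd, (hg.hasFDerivAt.rpow_const (p := e) (Or.inl h0)).fderiv]

omit D hy hB in
/-- The weight `η^a (det D²u)^γ`. -/
def weightA (u : (Fin n → ℝ) → ℝ) (x₀ p : Fin n → ℝ) (h : ℝ) (P : Params) (y : Fin n → ℝ) : ℝ :=
  etaF u x₀ p h y ^ P.a * (hess u y).det ^ P.gam

omit hB in
lemma grd_weightA (P : Params) :
    grd (weightA u x₀ p h P) y = weightA u x₀ p h P y • covW u x₀ p h P y := by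
  have hu := D.am
  have hW := hu.isOpen
  have hd := hu.det_pos hy
  have hη : DifferentiableAt ℝ (etaF u x₀ p h) y := (sm_etaF hu).differentiableAt hW hy
  have hdet : DifferentiableAt ℝ (fun z => (hess u z).det) y :=
    (sm_det (msm_hess hW hu.sm)).differentiableAt hW hy
  funext i
  show pd i (fun z => etaF u x₀ p h z ^ P.a * (hess u z).det ^ P.gam) y = _
  have b5 : pd i (fun z => (hess u z).det) y = (hess u y).det * covZ u y x₀ p h 0 i := by
    rw [pd_det hW (msm_hess hW hu.sm) hd.ne' hy]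
    exact congrArg _ (pd_logDet hu hy i).symm
  have b1 : pd i (etaF u x₀ p h) y = (-h⁻¹) * capGrad u x₀ p y i := congrFun (grd_etaF D hy) i
  rw [pd_mul (hη.fun_pow _) (hdet.rpow_const (Or.inl hd.ne')), pd_pow hη,
    pd_rpow hdet hd.ne', b5, b1, Real.rpow_sub_one hd.ne']
  simp only [weightA, covW, Pi.smul_apply, Pi.add_apply, smul_eq_mul,
    show covZ u y x₀ p h 1 i = -(h * etaF u x₀ p h y)⁻¹ * capGrad u x₀ p y i from rfl]
  have h1 := (D.eta y hy).ne'
  have hh := D.hpos.ne'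
  rcases Nat.eq_zero_or_pos P.a with h0 | h0
  · simp only [h0, Nat.cast_zero, zero_mul, zero_add, pow_zero]
    field_simp
  · obtain ⟨k, hk⟩ := Nat.exists_eq_add_of_le' h0
    simp only [hk, Nat.add_sub_cancel]
    field_simp
    push_cast
    ring

/-- The divergence of the flux where `η` and `F` are positive. -/
lemma div_flux (P : Params) (hF : ∀ z ∈ W, 0 < bigZ u z (covZ u z x₀ p h) P) :
    ∑ i, pd i (fun z => ∑ j, cofH u z i j * (weightA u x₀ p h P z *
        (bigZ u z (covZ u z x₀ p h) P ^ P.e0 * polyF u x₀ p h P.terms z j))) y =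
      weightA u x₀ p h P y * (hess u y).det * (jetAt u y x₀ p h B).flux P := by
  have hu := D.am
  have hW := hu.isOpen
  have hY := vsm_polyF D P.terms
  have hbig := sm_bigZ hu (vsm_covZ D) P
  have hpow : Sm W fun z => bigZ u z (covZ u z x₀ p h) P ^ P.e0 :=
    hbig.rpow_const_of_ne fun z hz => (hF z hz).ne'
  set Y : (Fin n → ℝ) → Fin n → ℝ :=
    fun z => bigZ u z (covZ u z x₀ p h) P ^ P.e0 • polyF u x₀ p h P.terms z with hYd
  have hYs : VSm W Y := VSm.smul hpow hY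
  have hΩ : Sm W (weightA u x₀ p h P) := ((sm_etaF hu).pow _).mul
    ((sm_det (msm_hess hW hu.sm)).rpow_const_of_ne fun z hz => (hu.det_pos hz).ne')
  have hc := msm_cofH hW hu.sm (det_ne_zero hu)
  have hFj : ∀ j, Sm W fun z => weightA u x₀ p h P z * Y z j := fun j => hΩ.mul (hYs j)
  have hdiv : gdiv u (fun z => weightA u x₀ p h P z • Y z) y =
      weightA u x₀ p h P y * (gdiv u Y y + covW u x₀ p h P y ⬝ᵥ (hinv u y *ᵥ Y y)) := by
    rw [gdiv_smul hW hy hΩ hYs, grd_weightA D hy, smul_dotProduct, smul_eq_mul]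
    ring
  have hev : gdiv u Y y + covW u x₀ p h P y ⬝ᵥ (hinv u y *ᵥ Y y) =
      (jetAt u y x₀ p h B).flux P := by
    have e : grd (fun z => bigZ u z (covZ u z x₀ p h) P ^ P.e0) y =
        (P.e0 * bigZ u y (covZ u y x₀ p h) P ^ (P.e0 - 1)) •
          grd (fun z => bigZ u z (covZ u z x₀ p h) P) y :=
      funext fun i => pd_rpow (hbig.differentiableAt hW hy) (hF y hy).ne' _ i
    rw [gdiv_smul hW hy hpow hY, e, smul_dotProduct, Matrix.mulVec_smul, dotProduct_smul,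
      smul_eq_mul, smul_eq_mul, Jet.flux, jet_polyDiv D hy hB, jet_bigF hB, jet_dF D hy hB,
      jet_polyY hB, dot_transfer hB]
    ring
  calc ∑ i, pd i (fun z => ∑ j, cofH u z i j * (weightA u x₀ p h P z * Y z j)) y
      = ∑ i, ∑ j, (pd i (fun z => cofH u z i j) y * (weightA u x₀ p h P y * Y y j) +
          cofH u y i j * vd (fun z => weightA u x₀ p h P z • Y z) y i j) := by
        refine sum_congr rfl fun i _ => ?_
        rw [pd_sum fun j _ => ((hc i j).mul (hFj j)).differentiableAt hW hy]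
        exact sum_congr rfl fun j _ =>
          pd_mul ((hc i j).differentiableAt hW hy) ((hFj j).differentiableAt hW hy) i
    _ = (∑ i, ∑ j, pd i (fun z => cofH u z i j) y * (weightA u x₀ p h P y * Y y j)) +
          (hess u y).det * gdiv u (fun z => weightA u x₀ p h P z • Y z) y := by
        simp only [sum_add_distrib, gdiv, mul_sum, cofH_apply, hinv, mul_assoc]
    _ = _ := by
        rw [sum_comm]
        simp only [← sum_mul, piola hW hu.sm (det_ne_zero hu) hy, zero_mul, sum_const_zero,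
          zero_add]
        rw [hdiv, hev]
        ring

omit D hy in
/-- The squared norm of `τ` in the jet. -/
lemma jet_d00 : (jetAt u y x₀ p h B).d 0 0 = Three.qQ u y := by
  rw [jet_d hB, dZ, Three.qQ]
  simp only [dotProduct, Matrix.mulVec, mul_sum]
  exact sum_congr rfl fun k _ => sum_congr rfl fun l _ => by
    simp only [covZ, grd, Matrix.cons_val_zero]
    ring

end

end Vale.Agent.P252.General
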