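import Vale.Agent.P252.Rigidity.Three.Defs
import Vale.Agent.P252.Rigidity.Complete

/-!
# One-cutoff flux certificates for affine maximal functions of `n` variables

Definitions only, and the interfaces between the modules.

`τ = D log det D²u` and `v = D log η`, `η = 1 - ũ/h`, with `ũ = u - u x₀ - p·(y - x₀)`;
`d_ab = ⟨Z_a, Z_b⟩` in the metric `D²u`, `Z = (τ, v)`. A certificate is a covector field
`Y = (d₀₀ + κ d₁₁)^e₀ ∑ c d₀₀^i d₀₁^j d₁₁^k Y_base`; the flux is `η^a (det D²u)^γ det D²u · G Y`.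

* `CertIneq n P`: the algebraic inequality for the normalised divergence at a point.
* `FluxBound n a q deg`: a `C¹` field on all of the domain with the divergence inequality.
* `CapExists`, `MassBound`, `VolumeBound`: the geometry of balanced caps.
* `Rigid n`: the conclusion.
-/

namespace Vale.Agent.P252.General

open scoped ContDiff Matrix
open Finset

noncomputable section

variable {n : ℕ}

/-- The basic fields. -/
inductive Base : Type where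
  | k (z : Fin 2)
  | h (z : Fin 2)
  | t (a b : Fin 2)
  | ah (c : Fin 2)
  | atb (b c : Fin 2)

/-- The degree of a basic field, `τ`, `v` and `D³u` having degree one and `D²log det` two. -/
def Base.wt : Base → ℕ
  | .k _ => 1
  | .h _ => 3
  | .t _ _ => 3
  | .ah _ => 5
  | .atb _ _ => 5

/-- A term `c d₀₀^i d₀₁^j d₁₁^k Y_base` of a field. -/
structure Term : Type where
  base : Base
  c : ℝ
  i : ℕ
  j : ℕ
  k : ℕ

/-- The parameters of a certificate. -/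
structure Params : Type where
  a : ℕ
  gam : ℝ
  kap : ℝ
  e0 : ℝ
  deg : ℝ
  terms : List Term

/-- Every term of the field has degree `deg - 1`. -/
def Params.Homog (P : Params) : Prop :=
  ∀ T ∈ P.terms, 2 * P.e0 + ((2 * (T.i + T.j + T.k) + T.base.wt + 1 : ℕ) : ℝ) = P.deg

/-- The values, at a point with `D²u = 1`, that enter the divergence of the flux. -/
structure Jet (n : ℕ) : Type where
  T : Fin n → Matrix (Fin n) (Fin n) ℝ
  H : Matrix (Fin n) (Fin n) ℝ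
  t : Fin n → ℝ
  v : Fin n → ℝ
  e : ℝ

namespace Jet

variable (J : Jet n) (P : Params)

/-- The constraints satisfied by these values; `e = 1/(h η)`. -/
structure Valid : Prop where
  symT : ∀ a b c, J.T a b c = J.T b a c ∧ J.T a b c = J.T a c b
  symH : J.Hᵀ = J.H
  trT : ∀ k, (J.T k).trace = J.t k
  trH : J.H.trace = ((n : ℝ) + 1) / ((n : ℝ) + 2) * (J.t ⬝ᵥ J.t)
  e_pos : 0 < J.e

/-- The two covectors. -/
def Z : Fin 2 → Fin n → ℝ := ![J.t, J.v]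

/-- `D³u(Z, ·, ·)`. -/
def C (z : Fin 2) : Matrix (Fin n) (Fin n) ℝ := ∑ k, J.Z z k • J.T k

/-- `∂ᵢ Z_a`, in entry `(i, a)`. -/
def dl : Fin 2 → Matrix (Fin n) (Fin n) ℝ :=
  ![J.H, -Matrix.vecMulVec J.v J.v - J.e • (1 : Matrix (Fin n) (Fin n) ℝ)]

/-- `∂ᵢ Z^a`, in entry `(i, a)`. -/
def du (z : Fin 2) : Matrix (Fin n) (Fin n) ℝ := J.dl z - J.C z

/-- `D log` of the weight. -/
def dW : Fin n → ℝ := (P.a : ℝ) • J.v + P.gam • J.t

/-- `⟨Z_a, Z_b⟩`. -/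
def d (a b : Fin 2) : ℝ := J.Z a ⬝ᵥ J.Z b

/-- The gradient of `⟨Z_a, Z_b⟩`. -/
def dd (a b : Fin 2) : Fin n → ℝ := J.dl a *ᵥ J.Z b + J.du b *ᵥ J.Z a

/-- `d₀₀ + κ d₁₁`. -/
def bigF : ℝ := J.d 0 0 + P.kap * J.d 1 1

/-- The gradient of `bigF`. -/
def dF : Fin n → ℝ := J.dd 0 0 + P.kap • J.dd 1 1

/-- The basic fields. -/
def baseY : Base → Fin n → ℝ
  | .k z => J.Z z
  | .h z => J.H *ᵥ J.Z z
  | .t a b => J.C a *ᵥ J.Z b
  | .ah c => (J.Z 0 ⬝ᵥ (J.H *ᵥ J.Z c)) • J.Z 1 - (J.Z 1 ⬝ᵥ (J.H *ᵥ J.Z c)) • J.Z 0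
  | .atb b c => (J.Z b ⬝ᵥ (J.C 0 *ᵥ J.Z c)) • J.Z 1 - (J.Z b ⬝ᵥ (J.C 1 *ᵥ J.Z c)) • J.Z 0

/-- The gradient of `H(Z_a, Z_b)` without the derivative of `H`. -/
def gradH (a b : Fin 2) : Fin n → ℝ :=
  J.du a *ᵥ (J.H *ᵥ J.Z b) + J.du b *ᵥ (J.H *ᵥ J.Z a)

/-- The gradient of `D³u(Z_a, Z_b, Z_c)` without the derivative of `D³u`. -/
def gradT (a b c : Fin 2) : Fin n → ℝ :=
  J.du a *ᵥ (J.C b *ᵥ J.Z c) + J.du b *ᵥ (J.C a *ᵥ J.Z c) + J.du c *ᵥ (J.C a *ᵥ J.Z b)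

/-- The normalised divergence of a basic field, without the derivative of the weight. -/
def baseDiv : Base → ℝ
  | .k z => (J.dl z).trace
  | .h z => (J.C z * J.H).trace + (J.H * J.du z).trace +
      ((n : ℝ) + 1) / ((n : ℝ) + 2) * (J.Z z ⬝ᵥ (((2 : ℝ) • J.H - J.C 0) *ᵥ J.t))
  | .t a b => J.Z a ⬝ᵥ (J.H *ᵥ J.Z b) + (J.C a * J.C b).trace + (J.C a * J.du b).trace +
      (J.C b * J.du a).trace
  | .ah c => J.gradH 0 c ⬝ᵥ J.Z 1 - J.gradH 1 c ⬝ᵥ J.Z 0 +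
      (J.Z 0 ⬝ᵥ (J.H *ᵥ J.Z c)) * (J.dl 1).trace - (J.Z 1 ⬝ᵥ (J.H *ᵥ J.Z c)) * (J.dl 0).trace
  | .atb b c => J.gradT 0 b c ⬝ᵥ J.Z 1 - J.gradT 1 b c ⬝ᵥ J.Z 0 +
      (J.Z b ⬝ᵥ (J.C 0 *ᵥ J.Z c)) * (J.dl 1).trace - (J.Z b ⬝ᵥ (J.C 1 *ᵥ J.Z c)) * (J.dl 0).trace

/-- The monomial of a term. -/
def mono (T : Term) : ℝ := J.d 0 0 ^ T.i * J.d 0 1 ^ T.j * J.d 1 1 ^ T.k

/-- The gradient of the monomial of a term. -/
def dmono (T : Term) : Fin n → ℝ :=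
  ((T.i : ℝ) * J.d 0 0 ^ (T.i - 1) * J.d 0 1 ^ T.j * J.d 1 1 ^ T.k) • J.dd 0 0 +
    (J.d 0 0 ^ T.i * ((T.j : ℝ) * J.d 0 1 ^ (T.j - 1)) * J.d 1 1 ^ T.k) • J.dd 0 1 +
    (J.d 0 0 ^ T.i * J.d 0 1 ^ T.j * ((T.k : ℝ) * J.d 1 1 ^ (T.k - 1))) • J.dd 1 1

/-- The polynomial part `∑ c d₀₀^i d₀₁^j d₁₁^k Y_base` of the field. -/
def polyY : Fin n → ℝ := (P.terms.map fun T => (T.c * J.mono T) • J.baseY T.base).sum

/-- The normalised divergence of the polynomial part. -/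
def polyDiv : ℝ :=
  (P.terms.map fun T => T.c * (J.mono T * (J.baseDiv T.base + J.dW P ⬝ᵥ J.baseY T.base) +
    J.dmono T ⬝ᵥ J.baseY T.base)).sum

/-- The normalised divergence of the flux. -/
def flux : ℝ :=
  J.bigF P ^ P.e0 * J.polyDiv P + P.e0 * J.bigF P ^ (P.e0 - 1) * (J.dF P ⬝ᵥ J.polyY P)

end Jet

/-- The pointwise algebraic inequality of degree `P.deg`. -/
def CertIneq (n : ℕ) (P : Params) : Prop :=
  0 < P.kap ∧ 4 < P.deg ∧ P.e0 ≠ 0 ∧ P.deg + 1 < (P.a : ℝ) ∧ P.Homog ∧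
    ∃ ε C : ℝ, 0 < ε ∧ 0 ≤ C ∧ ∀ J : Jet n, J.Valid →
      ε * J.d 0 0 ^ (P.deg / 2) - C * J.e ^ (P.deg / 2) ≤ J.flux P

variable (u : (Fin n → ℝ) → ℝ) (x₀ p : Fin n → ℝ) (h : ℝ)

/-- `u` minus the affine function with slope `p` equal to `u` at `x₀`. -/
def capFun (y : Fin n → ℝ) : ℝ := u y - u x₀ - p ⬝ᵥ (y - x₀)

/-- The closed cap. -/
def capSet (W : Set (Fin n → ℝ)) : Set (Fin n → ℝ) := {y | y ∈ W ∧ capFun u x₀ p y ≤ h}

/-- A compact cap balanced around `x₀` with ratio `β`. -/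
structure IsCap (β : ℝ) (W : Set (Fin n → ℝ)) : Prop where
  cpt : IsCompact (capSet u x₀ p h W)
  bal : ∀ y ∈ capSet u x₀ p h W, x₀ - β • (y - x₀) ∈ capSet u x₀ p h W

/-- The gradient of the cap function. -/
def capGrad (y : Fin n → ℝ) : Fin n → ℝ := fun i => pd i (capFun u x₀ p) y

/-- `η = 1 - ũ/h`. -/
def etaF (y : Fin n → ℝ) : ℝ := 1 - capFun u x₀ p y / h

/-- `ψ = 1 + ((y - x₀)·Dũ - ũ)/h`. -/
def psiF (y : Fin n → ℝ) : ℝ :=
  1 + ((y - x₀) ⬝ᵥ capGrad u x₀ p y - capFun u x₀ p y) / h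

/-- The cap integral `∫ max(η,0)^m (det D²u)^q`. -/
def capMass (W : Set (Fin n → ℝ)) (m : ℕ) (q : ℝ) : ℝ :=
  ∫ y in capSet u x₀ p h W, max (etaF u x₀ p h y) 0 ^ m * (hess u y).det ^ q

/-- A `C¹` field on the domain, zero where `η ≤ 0`, with the divergence inequality where
`η > 0`. -/
def FluxBound (n a : ℕ) (q deg : ℝ) : Prop :=
  ∃ ε C : ℝ, 0 < ε ∧ 0 ≤ C ∧
    ∀ {W : Set (Fin n → ℝ)} {u : (Fin n → ℝ) → ℝ}, Three.AM W u → ∀ x₀ p : Fin n → ℝ, ∀ h : ℝ,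
      0 < h → ∃ Φ : Fin n → (Fin n → ℝ) → ℝ, (∀ i, ContDiffOn ℝ 1 (Φ i) W) ∧
        (∀ i, ∀ y ∈ W, etaF u x₀ p h y ≤ 0 → Φ i y = 0) ∧
        ∀ y ∈ W, 0 < etaF u x₀ p h y →
          etaF u x₀ p h y ^ a * (hess u y).det ^ q *
              (ε * Three.qQ u y ^ (deg / 2) - C * (h * etaF u x₀ p h y)⁻¹ ^ (deg / 2)) ≤
            ∑ i, pd i (Φ i) y

/-- A balanced cap exists at every height, with a ratio depending only on the dimension. -/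
def CapExists (n : ℕ) (β : ℝ) : Prop :=
  ∀ {W : Set (Fin n → ℝ)} {u : (Fin n → ℝ) → ℝ}, Three.AM W u → Convex ℝ W →
    (∀ R : ℝ, IsClosed {y | y ∈ W ∧ u y ≤ R}) → ∀ x₀ ∈ W, ∀ h : ℝ, 0 < h →
      ∃ p : Fin n → ℝ, IsCap u x₀ p h β W

/-- The mass of a balanced cap, for the weight exponent `q`. -/
def MassBound (n : ℕ) (β : ℝ) (m : ℕ) (q : ℝ) : Prop :=
  ∃ C : ℝ, 0 ≤ C ∧ ∀ {W : Set (Fin n → ℝ)} {u : (Fin n → ℝ) → ℝ}, Three.AM W u → Convex ℝ W →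
    ∀ x₀ ∈ W, ∀ (p : Fin n → ℝ) (h : ℝ), 0 < h → IsCap u x₀ p h β W →
      capMass u x₀ p h W m q ≤
        C * h ^ ((n : ℝ) * q) * (MeasureTheory.volume (capSet u x₀ p h W)).toReal ^ (1 - 2 * q)

/-- The volume of a balanced cap against the Hessian determinant at its centre (needed only for
`q < 1/2`). -/
def VolumeBound (n : ℕ) (β : ℝ) : Prop :=
  ∃ C : ℝ, 0 ≤ C ∧ ∀ {W : Set (Fin n → ℝ)} {u : (Fin n → ℝ) → ℝ}, Three.AM W u → Convex ℝ W →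
    ∀ x₀ ∈ W, ∀ (p : Fin n → ℝ) (h : ℝ), 0 < h → IsCap u x₀ p h β W →
      (hess u x₀).det * (MeasureTheory.volume (capSet u x₀ p h W)).toReal ^ 2 ≤ C * h ^ n

/-- Rigidity in dimension `n`: complete sublevels force a quadratic polynomial on the whole
space. -/
def Rigid (n : ℕ) : Prop :=
  ∀ {W : Set (Fin n → ℝ)} {u : (Fin n → ℝ) → ℝ}, Three.AM W u → W.Nonempty → Convex ℝ W →
    Rigidity.GraphComplete W u → W = Set.univ ∧ IsQuadraticPoly u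

/-- The goal of the pointwise module. -/
def PointwiseGoal (n : ℕ) : Prop :=
  ∀ P : Params, CertIneq n P → FluxBound n P.a (P.gam + 1) P.deg

/-- The goal of the assembly module in the affine invariant case `q = 1/2`. -/
def HalfAssemblyGoal (n : ℕ) : Prop :=
  ∀ (a m : ℕ) (deg β : ℝ), 0 < n → (n : ℝ) < deg → 0 < β → (m : ℝ) + deg / 2 ≤ (a : ℝ) →
    FluxBound n a (1 / 2) deg → CapExists n β → MassBound n β m (1 / 2) → Rigid n

end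

end Vale.Agent.P252.General
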